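import Claimed.Agent.R282.Rep.Defs

/-!
# Row 282, Rep, LEAF L-REP-ROOT : the explicit root vectors (statements by helper103)

Pure matrix computations on `Ix n = Fin n × Fin 2`.  `uvec i s` is an eigenvector of `Hc x` with eigenvalue `sgnB s * x i`; `uvec i s ⬝ᵥ uvec j t = if i = j ∧ s ≠ t then 2 else 0`;
`star (uvec i s) = uvec i (!s)`; the `uvec` form a basis of `Ix n → ℂ`.  With `x ∧ y := vecMulVec x y - vecMulVec y x` (skew-symmetric):
`[x ∧ y, z ∧ w] = (y·z) x∧w - (y·w) x∧z - (x·z) y∧w + (x·w) y∧z`, `H (x∧y) - (x∧y) H = (Hx)∧y + x∧(Hy)` for skew-symmetric `H`, `Hc (Pi.single i 1) = (1/2) (uvec i false ∧ uvec i true)`.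
Every skew-symmetric matrix is a combination of the `u_a ∧ u_c`.
-/

set_option autoImplicit false

namespace Claimed.Agent.R282

open Claims.C0456 Matrix

variable {n : ℕ}
variable {ι ι' ι₁ ι₂ ι₃ : Type} [Fintype ι] [DecidableEq ι] [Fintype ι'] [DecidableEq ι']
  [Fintype ι₁] [DecidableEq ι₁] [Fintype ι₂] [DecidableEq ι₂] [Fintype ι₃] [DecidableEq ι₃]

theorem rrt_dot_vec (β : RootD n) (x : Vec n) :
    dot β.vec x = sgnB β.si * x β.i + sgnB β.sj * x β.j := by
  unfold dot RootD.vec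
  simp only [add_mul, Finset.sum_add_distrib, ite_mul, zero_mul, Finset.sum_ite_eq',
    Finset.mem_univ, if_true]

theorem rrt_Hc_apply (x : Vec n) (p q : Ix n) : Hc x p q = if p.1 = q.1 then
    Complex.I * (x p.1 : ℂ) * (if p.2 = 0 ∧ q.2 = 1 then 1 else if p.2 = 1 ∧ q.2 = 0 then -1 else 0)
    else 0 := by
  show Complex.I * ((Jmat x p q : ℝ) : ℂ) = _
  unfold Jmat
  split_ifs <;> simp

theorem rrt_Hc_transpose (x : Vec n) : (Hc x)ᵀ = - Hc x := by
  ext p q
  obtain ⟨k, a⟩ := p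
  obtain ⟨l, b⟩ := q
  rw [Matrix.transpose_apply, Matrix.neg_apply, rrt_Hc_apply, rrt_Hc_apply]
  by_cases h : k = l
  · subst h
    fin_cases a <;> fin_cases b <;> simp
  · rw [if_neg h, if_neg (fun e => h e.symm)]
    simp

theorem rrt_Hc_mulVec (x : Vec n) (i : Fin n) (s : Bool) :
    Hc x *ᵥ uvec i s = ((sgnB s * x i : ℝ) : ℂ) • uvec i s := by
  funext p
  obtain ⟨k, a⟩ := p
  rw [Matrix.mulVec, dotProduct, Fintype.sum_prod_type, Finset.sum_eq_single k]
  · simp only [Fin.sum_univ_two, rrt_Hc_apply, uvec, Pi.smul_apply, smul_eq_mul]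
    by_cases h : k = i
    · subst h
      have hI : ∀ z : ℂ, Complex.I * (Complex.I * z) = -z := by
        intro z
        rw [← mul_assoc, Complex.I_mul_I, neg_one_mul]
      fin_cases a <;> cases s <;> simp [sgnB, mul_comm, hI]
    · simp [h]
  · intro l _ hl
    have hl' : ¬ k = l := fun e => hl e.symm
    simp only [rrt_Hc_apply, if_neg hl', zero_mul, Finset.sum_const_zero]
  · intro h
    exact absurd (Finset.mem_univ _) h

theorem rrt_star_uvec (i : Fin n) (s : Bool) : star (uvec i s) = uvec i (!s) := by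
  funext p
  simp only [Pi.star_apply, uvec]
  split_ifs <;> cases s <;> simp_all

theorem rrt_uvec_dot (i j : Fin n) (s t : Bool) :
    uvec i s ⬝ᵥ uvec j t = if i = j ∧ s ≠ t then 2 else 0 := by
  rw [dotProduct, Fintype.sum_prod_type]
  simp only [Fin.sum_univ_two, uvec]
  by_cases h : i = j
  · subst h
    rw [Finset.sum_eq_single i]
    · cases s <;> cases t <;> simp <;> norm_num
    · intro l _ hl
      simp [hl]
    · intro h
      exact absurd (Finset.mem_univ _) h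
  · rw [if_neg (fun e : i = j ∧ s ≠ t => h e.1)]
    apply Finset.sum_eq_zero
    intro l _
    by_cases h1 : l = i
    · have : ¬ l = j := fun e => h (h1 ▸ e)
      simp [this]
    · simp [h1]


theorem rrt_Hc_add (x y : Vec n) : Hc (x + y) = Hc x + Hc y := by
  ext p q
  rw [Matrix.add_apply, rrt_Hc_apply, rrt_Hc_apply, rrt_Hc_apply]
  split_ifs <;> simp <;> ring

theorem rrt_Hc_smul (c : ℝ) (x : Vec n) : Hc (c • x) = (c : ℂ) • Hc x := by
  ext p q
  rw [Matrix.smul_apply, rrt_Hc_apply, rrt_Hc_apply]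
  split_ifs <;> simp <;> ring

theorem rrt_vec_eq (β : RootD n) :
    β.vec = sgnB β.si • Pi.single β.i (1 : ℝ) + sgnB β.sj • Pi.single β.j (1 : ℝ) := by
  funext k
  simp only [RootD.vec, Pi.add_apply, Pi.smul_apply, Pi.single_apply, smul_eq_mul, mul_ite, mul_one,
    mul_zero]

theorem rrt_wedge_self (i : Fin n) (s : Bool) :
    vecMulVec (uvec i s) (uvec i (!s)) - vecMulVec (uvec i (!s)) (uvec i s)
      = ((2 * sgnB s : ℝ) : ℂ) • Hc (Pi.single i 1) := by
  ext p q
  obtain ⟨k, a⟩ := p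
  obtain ⟨l, b⟩ := q
  rw [Matrix.sub_apply, Matrix.smul_apply, vecMulVec_apply, vecMulVec_apply, rrt_Hc_apply]
  simp only [uvec, Pi.single_apply]
  by_cases h1 : k = i
  · by_cases h2 : l = i
    · subst h1
      subst h2
      fin_cases a <;> fin_cases b <;> cases s <;> simp [sgnB] <;> ring
    · have : ¬ k = l := fun e => h2 (e ▸ h1)
      simp [h2, this]
  · simp [h1]

theorem rrt_one : (1 : Matrix (Ix n) (Ix n) ℂ)
    = (1 / 2 : ℂ) • ∑ a : Fin n × Bool, vecMulVec (uvec a.1 a.2) (uvec a.1 (!a.2)) := by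
  ext p q
  obtain ⟨k, a⟩ := p
  obtain ⟨l, b⟩ := q
  rw [Matrix.smul_apply, Matrix.sum_apply, Fintype.sum_prod_type, Finset.sum_eq_single k]
  · simp only [Fintype.sum_bool, vecMulVec_apply, uvec, Matrix.one_apply, Prod.mk.injEq]
    by_cases h : k = l
    · subst h
      fin_cases a <;> fin_cases b <;> simp <;> norm_num
    · have h' : ¬ l = k := fun e => h e.symm
      simp [h, h']
  · intro i _ hi
    have hi' : ¬ k = i := fun e => hi e.symm
    simp [vecMulVec_apply, uvec, hi']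
  · intro h
    exact absurd (Finset.mem_univ _) h

theorem rrt_one' : (1 : Matrix (Ix n) (Ix n) ℂ)
    = (1 / 2 : ℂ) • ∑ a : Fin n × Bool, vecMulVec (uvec a.1 (!a.2)) (uvec a.1 a.2) := by
  have h := congrArg Matrix.transpose (rrt_one (n := n))
  rw [Matrix.transpose_one, Matrix.transpose_smul, Matrix.transpose_sum] at h
  simpa only [transpose_vecMulVec] using h

theorem rrt_expand (E : Matrix (Ix n) (Ix n) ℂ) :
    E = (1 / 4 : ℂ) • ∑ a : Fin n × Bool, ∑ c : Fin n × Bool,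
      (uvec a.1 (!a.2) ⬝ᵥ E *ᵥ uvec c.1 (!c.2)) • vecMulVec (uvec a.1 a.2) (uvec c.1 c.2) := by
  have h0 : E = ((1 / 2 : ℂ) • ∑ a : Fin n × Bool, vecMulVec (uvec a.1 a.2) (uvec a.1 (!a.2))) * E *
      ((1 / 2 : ℂ) • ∑ a : Fin n × Bool, vecMulVec (uvec a.1 (!a.2)) (uvec a.1 a.2)) := by
    rw [← rrt_one, ← rrt_one', Matrix.one_mul, Matrix.mul_one]
  conv_lhs => rw [h0]
  rw [Matrix.smul_mul, Matrix.smul_mul, Matrix.mul_smul, smul_smul, Finset.sum_mul, Finset.sum_mul]
  congr 1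
  · norm_num
  · apply Finset.sum_congr rfl
    intro a _
    rw [Finset.mul_sum]
    apply Finset.sum_congr rfl
    intro c _
    rw [vecMulVec_mul, vecMulVec_mul_vecMulVec, vecMulVec_smul, Matrix.dotProduct_mulVec]

theorem rrt_ext (E E' : Matrix (Ix n) (Ix n) ℂ)
    (h : ∀ (i : Fin n) (s : Bool) (j : Fin n) (t : Bool),
      uvec i s ⬝ᵥ E *ᵥ uvec j t = uvec i s ⬝ᵥ E' *ᵥ uvec j t) : E = E' := by
  rw [rrt_expand E, rrt_expand E']
  simp only [h]

theorem rrt_bracket_vmv (x : Vec n) (i j : Fin n) (s t : Bool) :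
    Hc x * vecMulVec (uvec i s) (uvec j t) - vecMulVec (uvec i s) (uvec j t) * Hc x
      = ((sgnB s * x i + sgnB t * x j : ℝ) : ℂ) • vecMulVec (uvec i s) (uvec j t) := by
  rw [mul_vecMulVec, vecMulVec_mul, rrt_Hc_mulVec, ← Matrix.mulVec_transpose, rrt_Hc_transpose,
    Matrix.neg_mulVec, rrt_Hc_mulVec, vecMulVec_neg, smul_vecMulVec, vecMulVec_smul, sub_neg_eq_add,
    ← add_smul]
  push_cast
  rfl

/-- (R0) the explicit root vectors -/
theorem isRootVec_rootVec (β : RootD n) : IsRootVec Ty.D β (rootVec β) := by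
  refine ⟨⟨?_, fun h => by cases h⟩, fun x => ?_⟩
  · unfold rootVec
    rw [transpose_smul, transpose_sub, transpose_vecMulVec, transpose_vecMulVec, ← smul_neg, neg_sub]
  · unfold rootVec
    have e1 := rrt_bracket_vmv x β.i β.j β.si β.sj
    have e2 := rrt_bracket_vmv x β.j β.i β.sj β.si
    rw [add_comm] at e2
    rw [Matrix.mul_smul, Matrix.smul_mul, ← smul_sub, mul_sub, sub_mul, rrt_dot_vec, smul_comm]
    congr 1
    rw [smul_sub, ← e1, ← e2]
    abel

theorem rrt_coeff (β : RootD n) (E : Matrix (Ix n) (Ix n) ℂ) (h : IsRootVec Ty.D β E) (i j : Fin n)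
    (s t : Bool) (x : Vec n) :
    ((sgnB s * x i + sgnB t * x j + dot β.vec x : ℝ) : ℂ) * (uvec i s ⬝ᵥ E *ᵥ uvec j t) = 0 := by
  have h1 : uvec i s ⬝ᵥ (Hc x * E - E * Hc x) *ᵥ uvec j t
      = uvec i s ⬝ᵥ (((dot β.vec x : ℝ) : ℂ) • E) *ᵥ uvec j t := by rw [h.2 x]
  rw [Matrix.sub_mulVec, dotProduct_sub, ← Matrix.mulVec_mulVec, ← Matrix.mulVec_mulVec,
    rrt_Hc_mulVec, Matrix.dotProduct_mulVec _ (Hc x), ← Matrix.mulVec_transpose, rrt_Hc_transpose,
    Matrix.neg_mulVec, rrt_Hc_mulVec, Matrix.mulVec_smul, neg_dotProduct, smul_dotProduct,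
    dotProduct_smul, Matrix.smul_mulVec, dotProduct_smul] at h1
  simp only [smul_eq_mul] at h1
  push_cast at h1 ⊢
  linear_combination -h1

theorem rrt_rootVec_coeff (β : RootD n) (i j : Fin n) (s t : Bool) :
    uvec i s ⬝ᵥ rootVec β *ᵥ uvec j t
      = (1 / 2) * ((uvec i s ⬝ᵥ uvec β.i β.si) * (uvec β.j β.sj ⬝ᵥ uvec j t)
        - (uvec i s ⬝ᵥ uvec β.j β.sj) * (uvec β.i β.si ⬝ᵥ uvec j t)) := by
  unfold rootVec
  rw [Matrix.smul_mulVec, Matrix.sub_mulVec, vecMulVec_mulVec, vecMulVec_mulVec, dotProduct_smul,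
    dotProduct_sub, dotProduct_smul, dotProduct_smul]
  simp only [smul_eq_mul, MulOpposite.smul_eq_mul_unop, MulOpposite.unop_op]

theorem rrt_skew_coeff (E : Matrix (Ix n) (Ix n) ℂ) (h : Eᵀ = -E) (u w : Ix n → ℂ) :
    u ⬝ᵥ E *ᵥ w = - (w ⬝ᵥ E *ᵥ u) := by
  rw [Matrix.dotProduct_mulVec, ← Matrix.mulVec_transpose, h, Matrix.neg_mulVec, neg_dotProduct,
    dotProduct_comm]

theorem rrt_special (bi bj : Fin n) (hne : bi ≠ bj) (si sj : Bool) (i j : Fin n) (s t : Bool)
    (hf : ∀ k : Fin n, sgnB s * (if i = k then 1 else 0) + sgnB t * (if j = k then 1 else 0)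
      + (sgnB si * (if bi = k then 1 else 0) + sgnB sj * (if bj = k then 1 else 0)) = 0) :
    (i = bi ∧ s = (!si) ∧ j = bj ∧ t = (!sj)) ∨ (i = bj ∧ s = (!sj) ∧ j = bi ∧ t = (!si)) := by
  have h1 := hf bi
  have h2 := hf bj
  have hne' : ¬ bj = bi := fun e => hne e.symm
  rw [if_pos rfl, if_neg hne'] at h1
  rw [if_neg hne, if_pos rfl] at h2
  by_cases a1 : i = bi
  · have a2 : ¬ i = bj := fun e => hne (a1 ▸ e)
    rw [if_pos a1] at h1
    rw [if_neg a2] at h2
    by_cases a3 : j = bj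
    · have a4 : ¬ j = bi := fun e => hne' (a3 ▸ e)
      rw [if_neg a4] at h1
      rw [if_pos a3] at h2
      left
      refine ⟨a1, ?_, a3, ?_⟩
      · cases s <;> cases si <;> simp [sgnB] at h1 ⊢
      · cases t <;> cases sj <;> simp [sgnB] at h2 ⊢
    · rw [if_neg a3] at h2
      cases sj <;> simp [sgnB] at h2
  · rw [if_neg a1] at h1
    by_cases a4 : j = bi
    · have a3 : ¬ j = bj := fun e => hne (a4 ▸ e)
      rw [if_pos a4] at h1
      rw [if_neg a3] at h2
      by_cases a2 : i = bj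
      · rw [if_pos a2] at h2
        right
        refine ⟨a2, ?_, a4, ?_⟩
        · cases s <;> cases sj <;> simp [sgnB] at h2 ⊢
        · cases t <;> cases si <;> simp [sgnB] at h1 ⊢
      · rw [if_neg a2] at h2
        cases sj <;> simp [sgnB] at h2
    · rw [if_neg a4] at h1
      cases si <;> simp [sgnB] at h1

/-- (R0') root spaces are lines -/
theorem isRootVec_unique (β : RootD n) (E : Matrix (Ix n) (Ix n) ℂ) (h : IsRootVec Ty.D β E) :
    ∃ c : ℂ, E = c • rootVec β := by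
  refine ⟨(uvec β.i (!β.si) ⬝ᵥ E *ᵥ uvec β.j (!β.sj)) / 2, ?_⟩
  apply rrt_ext
  intro i s j t
  rw [Matrix.smul_mulVec, dotProduct_smul, rrt_rootVec_coeff, rrt_uvec_dot, rrt_uvec_dot,
    rrt_uvec_dot, rrt_uvec_dot, smul_eq_mul]
  have hne := β.ne
  by_cases hA : i = β.i ∧ s = (!β.si) ∧ j = β.j ∧ t = (!β.sj)
  · obtain ⟨rfl, rfl, rfl, rfl⟩ := hA
    rw [if_pos ⟨rfl, by simp⟩, if_pos ⟨rfl, by simp⟩, if_neg (fun e => hne e.1)]
    ring
  · by_cases hB : i = β.j ∧ s = (!β.sj) ∧ j = β.i ∧ t = (!β.si)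
    · obtain ⟨rfl, rfl, rfl, rfl⟩ := hB
      rw [if_neg (fun e => hne e.1.symm), if_neg (fun e => hne e.1.symm), if_pos ⟨rfl, by simp⟩,
        if_pos ⟨rfl, by simp⟩, rrt_skew_coeff E h.1.1]
      ring
    · have h0 : uvec i s ⬝ᵥ E *ᵥ uvec j t = 0 := by
        by_contra he
        have hf : ∀ k : Fin n, sgnB s * (if i = k then 1 else 0) + sgnB t * (if j = k then 1 else 0)
            + (sgnB β.si * (if β.i = k then 1 else 0) + sgnB β.sj * (if β.j = k then 1 else 0)) = 0 := by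
          intro k
          have h1 := rrt_coeff β E h i j s t (Pi.single k 1)
          rcases mul_eq_zero.1 h1 with h2 | h2
          · have h3 : sgnB s * (Pi.single k 1 : Vec n) i + sgnB t * (Pi.single k 1 : Vec n) j
                + dot β.vec (Pi.single k 1) = 0 := by exact_mod_cast h2
            rw [rrt_dot_vec] at h3
            simpa only [Pi.single_apply] using h3
          · exact absurd h2 he
        rcases rrt_special β.i β.j hne β.si β.sj i j s t hf with h4 | h4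
        · exact hA h4
        · exact hB h4
      rw [h0]
      have c1 : ¬ ((i = β.i ∧ s ≠ β.si) ∧ (β.j = j ∧ β.sj ≠ t)) := by
        rintro ⟨⟨e1, e2⟩, e3, e4⟩
        apply hA
        refine ⟨e1, ?_, e3.symm, ?_⟩
        · revert e2; cases s <;> cases β.si <;> simp
        · revert e4; cases t <;> cases β.sj <;> simp
      have c2 : ¬ ((i = β.j ∧ s ≠ β.sj) ∧ (β.i = j ∧ β.si ≠ t)) := by
        rintro ⟨⟨e1, e2⟩, e3, e4⟩
        apply hB
        refine ⟨e1, ?_, e3.symm, ?_⟩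
        · revert e2; cases s <;> cases β.sj <;> simp
        · revert e4; cases t <;> cases β.si <;> simp
      have d1 : (if i = β.i ∧ s ≠ β.si then (2 : ℂ) else 0) * (if β.j = j ∧ β.sj ≠ t then 2 else 0) = 0 := by
        by_cases g1 : i = β.i ∧ s ≠ β.si
        · rw [if_neg (fun g2 => c1 ⟨g1, g2⟩), mul_zero]
        · rw [if_neg g1, zero_mul]
      have d2 : (if i = β.j ∧ s ≠ β.sj then (2 : ℂ) else 0) * (if β.i = j ∧ β.si ≠ t then 2 else 0) = 0 := by
        by_cases g1 : i = β.j ∧ s ≠ β.sj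
        · rw [if_neg (fun g2 => c2 ⟨g1, g2⟩), mul_zero]
        · rw [if_neg g1, zero_mul]
      rw [d1, d2]
      ring

/-- (R0'') adjoint and bracket: `e_β^* = - e_(-β)`, `[e_β, e_β^*] = H_β` -/
theorem rootVec_conjTranspose (β : RootD n) : (rootVec β)ᴴ = - rootVec β.neg := by
  unfold rootVec RootD.neg
  rw [conjTranspose_smul, conjTranspose_sub, conjTranspose_vecMulVec, conjTranspose_vecMulVec,
    rrt_star_uvec, rrt_star_uvec, ← smul_neg, neg_sub]
  congr 1
  simp

theorem rootVec_bracket (β : RootD n) :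
    rootVec β * (rootVec β)ᴴ - (rootVec β)ᴴ * rootVec β = Hc β.vec := by
  rw [rootVec_conjTranspose, rrt_vec_eq, rrt_Hc_add, rrt_Hc_smul, rrt_Hc_smul]
  have w1 := rrt_wedge_self β.i β.si
  have w2 := rrt_wedge_self β.j β.sj
  have hne := β.ne
  have hne' : ¬ β.j = β.i := fun e => hne e.symm
  have k1 : ((sgnB β.si : ℝ) : ℂ) • Hc (Pi.single β.i 1) = (1 / 2 : ℂ) •
      (vecMulVec (uvec β.i β.si) (uvec β.i (!β.si)) - vecMulVec (uvec β.i (!β.si)) (uvec β.i β.si)) := by
    rw [w1, smul_smul]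
    congr 1
    push_cast
    ring
  have k2 : ((sgnB β.sj : ℝ) : ℂ) • Hc (Pi.single β.j 1) = (1 / 2 : ℂ) •
      (vecMulVec (uvec β.j β.sj) (uvec β.j (!β.sj)) - vecMulVec (uvec β.j (!β.sj)) (uvec β.j β.sj)) := by
    rw [w2, smul_smul]
    congr 1
    push_cast
    ring
  rw [k1, k2]
  unfold rootVec RootD.neg
  simp only [Matrix.mul_neg, Matrix.neg_mul, Matrix.mul_smul, Matrix.smul_mul, mul_sub, sub_mul,
    vecMulVec_mul_vecMulVec, rrt_uvec_dot, vecMulVec_smul]
  simp only [hne, hne', false_and, if_false, zero_smul, true_and]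
  have b1 : ∀ b : Bool, b ≠ (!b) := by intro b; cases b <;> simp
  have b2 : ∀ b : Bool, (!b) ≠ b := by intro b; cases b <;> simp
  simp only [b1, b2, if_true, ne_eq, not_false_eq_true]
  module

theorem rrt_wedge_mem (i j : Fin n) (s t : Bool) :
    vecMulVec (uvec i s) (uvec j t) - vecMulVec (uvec j t) (uvec i s) ∈
      Submodule.span ℂ ({Y | ∃ x : Vec n, Y = Hc x} ∪ {Y | ∃ β : RootD n, Y = rootVec β}) := by
  by_cases h : i = j
  · subst h
    by_cases hs : s = t
    · subst hs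
      rw [sub_self]
      exact Submodule.zero_mem _
    · have : t = !s := by
        revert hs
        cases s <;> cases t <;> simp
      subst this
      rw [rrt_wedge_self]
      exact Submodule.smul_mem _ _ (Submodule.subset_span (Or.inl ⟨_, rfl⟩))
  · have e : vecMulVec (uvec i s) (uvec j t) - vecMulVec (uvec j t) (uvec i s)
        = (2 : ℂ) • rootVec ⟨i, j, h, s, t⟩ := by
      unfold rootVec
      rw [smul_smul]
      norm_num
    rw [e]
    exact Submodule.smul_mem _ _ (Submodule.subset_span (Or.inr ⟨_, rfl⟩))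

/-- (R0''') `so(2n, ℂ)` is spanned by the torus and the root vectors -/
theorem inG_span (X : Matrix (Ix n) (Ix n) ℂ) (h : Ty.D.InG X) :
    X ∈ Submodule.span ℂ ({Y | ∃ x : Vec n, Y = Hc x} ∪ {Y | ∃ β : RootD n, Y = rootVec β}) := by
  have hX : X = (1 / 2 : ℂ) • (X - Xᵀ) := by
    rw [h.1, sub_neg_eq_add, ← two_smul ℂ X, smul_smul]
    norm_num
  have e2 : X - Xᵀ = (1 / 4 : ℂ) • ∑ a : Fin n × Bool, ∑ c : Fin n × Bool,
      (uvec a.1 (!a.2) ⬝ᵥ X *ᵥ uvec c.1 (!c.2)) •
        (vecMulVec (uvec a.1 a.2) (uvec c.1 c.2) - vecMulVec (uvec c.1 c.2) (uvec a.1 a.2)) := by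
    have e := rrt_expand X
    have e' := congrArg Matrix.transpose e
    rw [transpose_smul, transpose_sum] at e'
    simp only [transpose_sum, transpose_smul, transpose_vecMulVec] at e'
    refine (congrArg₂ HSub.hSub e e').trans ?_
    rw [← smul_sub, ← Finset.sum_sub_distrib]
    congr 1
    apply Finset.sum_congr rfl
    intro a _
    rw [← Finset.sum_sub_distrib]
    apply Finset.sum_congr rfl
    intro c _
    rw [smul_sub]
  rw [hX, e2]
  apply Submodule.smul_mem
  apply Submodule.smul_mem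
  apply Submodule.sum_mem
  intro a _
  apply Submodule.sum_mem
  intro c _
  apply Submodule.smul_mem
  exact rrt_wedge_mem _ _ _ _

end Claimed.Agent.R282
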