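import Claimed.Agent.R282.Rep.R.Api

/-!
# Row 282, Rep, LEAF L-REP-WORDS : generation by the simple root vectors (statements by helper103), ~700 lines

Notation: `α_i = simpleRD hn i`, `e_i = rootVec α_i`, `f_i = rootVec α_i.neg = - e_iᴴ` (`rootVec_conjTranspose`).  `R.toLin.free hn a` = the action of `a ∈ FreeAlgebra ℂ (Fin n)` through `f_i`.
With `x ∧ y := vecMulVec x y - vecMulVec y x`: `[x ∧ y, z ∧ w] = (y·z) x∧w - (y·w) x∧z - (x·z) y∧w + (x·w) y∧z`, `uvec i s ⬝ᵥ uvec j t = if i = j ∧ s ≠ t then 2 else 0`, `rootVec β = (1/2) u_(i,si) ∧ u_(j,sj)`;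
so `[rootVec β, rootVec β'] = ± rootVec (β + β')` when `β + β'` is a root, `= 0` when `β + β' ≠ 0` is not a root.  Also `rootVec ⟨j, i, _, sj, si⟩ = - rootVec ⟨i, j, _, si, sj⟩`.
`genPos_rootVec`: positive roots are `e_a - e_b`, `e_a + e_b` (`a < b`), each written as `(i,j)` or `(j,i)`.  Induction:
  `e_a - e_b = (e_a - e_(a+1)) + (e_(a+1) - e_b)` (induction on `b - a`);  `e_a + e_(n-1) = (e_a - e_(a+1)) + (e_(a+1) + e_(n-1))` for `a < n - 2` (downward induction on `a`, start `α_(n-1)`);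
  `e_a + e_b = (e_b - e_(b+1)) + (e_a + e_(b+1))` for `b < n - 1` (downward induction on `b`).
`prim_of_simple`: induction on `GenPos` with the property `R.op X a = 0` (`op_bracket`, `genPos_inG`).
`cyc_words`: `Z = {R.toLin.free hn a v}` (a subspace) is stable under `f_i`; under `op (Hc x)` (`word_wt`; words span the free algebra: `FreeAlgebra.induction` or the basis of words); under `e_i`:
  induction on the word, `e_i f_j w v = f_j e_i w v + [e_i, f_j] w v`, `[e_i, f_j] = 0` (`simple_bracket`) or `= - Hc α_i.vec` (`rootVec_bracket`).  The set of `X ∈ g` with `op X Z ≤ Z` is closed under brackets and linear combinations, so contains all `rootVec β`, `β` positive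
  (`genPos_rootVec`), all `rootVec β.neg` (same induction for the adjoints: `(X Y - Y X)ᴴ = -(Xᴴ Yᴴ - Yᴴ Xᴴ)`; state a private `GenNeg` or use `genPos` for `Xᴴ`), hence all of `g` (`inG_span`; every root is positive or the opposite of a positive root).  `cyc_le`.
-/

set_option autoImplicit false

namespace Claimed.Agent.R282

open Claims.C0456 Matrix

variable {n : ℕ}
variable {ι : Type} [Fintype ι] [DecidableEq ι]

/-- the set generated by the positive simple root vectors under brackets and signs -/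
inductive GenPos (hn : 2 ≤ n) : Matrix (Ix n) (Ix n) ℂ → Prop
  | simple (i : Fin n) : GenPos hn (rootVec (simpleRD hn i))
  | bracket (X Y : Matrix (Ix n) (Ix n) ℂ) : GenPos hn X → GenPos hn Y → GenPos hn (X * Y - Y * X)
  | neg (X : Matrix (Ix n) (Ix n) ℂ) : GenPos hn X → GenPos hn (-X)

/-! ## wedge calculus -/

/-- `x ∧ y` -/
def rwdW (x y : Ix n → ℂ) : Matrix (Ix n) (Ix n) ℂ := vecMulVec x y - vecMulVec y x

theorem rwd_W_self (x : Ix n → ℂ) : rwdW x x = 0 := sub_self _

theorem rwd_W_swap (x y : Ix n → ℂ) : rwdW y x = - rwdW x y := by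
  simp only [rwdW, neg_sub]

theorem rwd_W_bracket (x y z w : Ix n → ℂ) :
    rwdW x y * rwdW z w - rwdW z w * rwdW x y =
      (y ⬝ᵥ z) • rwdW x w - (y ⬝ᵥ w) • rwdW x z - (x ⬝ᵥ z) • rwdW y w + (x ⬝ᵥ w) • rwdW y z := by
  simp only [rwdW, mul_sub, sub_mul, vecMulVec_mul_vecMulVec, vecMulVec_smul, smul_sub]
  rw [dotProduct_comm z y, dotProduct_comm w y, dotProduct_comm z x, dotProduct_comm w x]
  abel

theorem rwd_uvec_dot (i j : Fin n) (s t : Bool) :
    uvec i s ⬝ᵥ uvec j t = if i = j ∧ s ≠ t then 2 else 0 := by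
  simp only [dotProduct, uvec, Fintype.sum_prod_type, Fin.sum_univ_two]
  by_cases hij : i = j
  · subst hij
    rw [Finset.sum_eq_single i]
    · cases s <;> cases t <;> simp <;> norm_num
    · intro k _ hk
      simp [hk]
    · simp
  · have : ∀ k : Fin n, ¬ (k = i ∧ k = j) := fun k hk => hij (hk.1.symm.trans hk.2)
    simp only [hij, false_and, if_false]
    apply Finset.sum_eq_zero
    intro k _
    by_cases h1 : k = i
    · have h2 : k ≠ j := fun h => hij (h1.symm.trans h)
      simp [h2]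
    · simp [h1]

theorem rwd_rootVec (β : RootD n) :
    rootVec β = (1 / 2 : ℂ) • rwdW (uvec β.i β.si) (uvec β.j β.sj) := rfl

theorem rwd_rootVec_swap (i j : Fin n) (h : i ≠ j) (s t : Bool) :
    rootVec ⟨j, i, h.symm, t, s⟩ = - rootVec ⟨i, j, h, s, t⟩ := by
  rw [rwd_rootVec, rwd_rootVec, rwd_W_swap, smul_neg]

/-- general bracket of two root vectors -/
theorem rwd_rootVec_bracket (β γ : RootD n) :
    rootVec β * rootVec γ - rootVec γ * rootVec β = (1 / 4 : ℂ) •
      ((if β.j = γ.i ∧ β.sj ≠ γ.si then (2 : ℂ) else 0) • rwdW (uvec β.i β.si) (uvec γ.j γ.sj)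
      - (if β.j = γ.j ∧ β.sj ≠ γ.sj then (2 : ℂ) else 0) • rwdW (uvec β.i β.si) (uvec γ.i γ.si)
      - (if β.i = γ.i ∧ β.si ≠ γ.si then (2 : ℂ) else 0) • rwdW (uvec β.j β.sj) (uvec γ.j γ.sj)
      + (if β.i = γ.j ∧ β.si ≠ γ.sj then (2 : ℂ) else 0) • rwdW (uvec β.j β.sj) (uvec γ.i γ.si)) := by
  rw [rwd_rootVec, rwd_rootVec, smul_mul_smul_comm, smul_mul_smul_comm, ← smul_sub, rwd_W_bracket,
    rwd_uvec_dot, rwd_uvec_dot, rwd_uvec_dot, rwd_uvec_dot]
  norm_num

/-- `[e_(i,j), e_(j',k)] = e_(i,k)` -/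
theorem rwd_chain (i j k : Fin n) (hij : i ≠ j) (hjk : j ≠ k) (hik : i ≠ k) (s t r : Bool) :
    rootVec ⟨i, j, hij, s, t⟩ * rootVec ⟨j, k, hjk, !t, r⟩ -
      rootVec ⟨j, k, hjk, !t, r⟩ * rootVec ⟨i, j, hij, s, t⟩ = rootVec ⟨i, k, hik, s, r⟩ := by
  rw [rwd_rootVec_bracket, rwd_rootVec]
  simp only [hij, hjk, hik, false_and, if_false, zero_smul, sub_zero, add_zero, true_and]
  have : t ≠ !t := by cases t <;> simp
  rw [if_pos this, smul_smul]
  norm_num

/-! ## roots -/

theorem rwd_dot_vec (β : RootD n) (x : Vec n) :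
    dot β.vec x = sgnB β.si * x β.i + sgnB β.sj * x β.j := by
  simp only [dot, RootD.vec, add_mul, Finset.sum_add_distrib, ite_mul, zero_mul, Finset.sum_ite_eq',
    Finset.mem_univ, if_true]

theorem rwd_simpleRD_lt (hn : 2 ≤ n) (i : Fin n) (h : (i : ℕ) + 1 < n) :
    simpleRD hn i = ⟨i, ⟨i + 1, h⟩, by intro e; have := congrArg Fin.val e; simp at this,
      false, true⟩ := by
  rw [simpleRD, dif_pos h]

theorem rwd_simpleRD_last (hn : 2 ≤ n) (i : Fin n) (h : ¬ (i : ℕ) + 1 < n) :
    simpleRD hn i = ⟨⟨n - 2, by omega⟩, ⟨n - 1, by omega⟩,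
      by intro e; have := congrArg Fin.val e; simp at this; omega, false, false⟩ := by
  rw [simpleRD, dif_neg h]

theorem genPos_inG (hn : 2 ≤ n) (X : Matrix (Ix n) (Ix n) ℂ) (h : GenPos hn X) : Ty.D.InG X := by
  induction h with
  | simple i => exact (isRootVec_rootVec _).1
  | bracket X Y _ _ hX hY => exact inG_bracket X Y hX hY
  | neg X _ hX =>
    have := inG_smul (-1 : ℂ) X hX
    rwa [neg_one_smul] at this

theorem simpleRD_vec (hn : 2 ≤ n) (i : Fin n) :
    (simpleRD hn i).vec = fun k => ((simpleRootD n i k : ℤ) : ℝ) := by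
  funext k
  by_cases h : (i : ℕ) + 1 < n
  · rw [rwd_simpleRD_lt hn i h]
    simp only [RootD.vec, simpleRootD, if_pos h, sgnB, Fin.ext_iff]
    push_cast
    split_ifs <;> simp_all
  · rw [rwd_simpleRD_last hn i h]
    simp only [RootD.vec, simpleRootD, if_neg h, sgnB, Fin.ext_iff]
    have e1 : ((k : ℕ) = n - 2) ↔ ((k : ℕ) + 2 = n) := by omega
    have e2 : ((k : ℕ) = n - 1) ↔ ((k : ℕ) + 1 = n) := by omega
    simp only [e1, e2]
    push_cast
    split_ifs <;> simp_all

/-- `⟨ρ, α_i⟩ = 1` -/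
theorem simpleRD_rho (hn : 2 ≤ n) (i : Fin n) : dot (simpleRD hn i).vec (rhoV n) = 1 := by
  rw [rwd_dot_vec]
  by_cases h : (i : ℕ) + 1 < n
  · rw [rwd_simpleRD_lt hn i h]
    simp only [sgnB, rhoV]
    push_cast
    simp
  · rw [rwd_simpleRD_last hn i h]
    simp only [sgnB, rhoV]
    have h1 : ((n - 2 : ℕ) : ℝ) = (n : ℝ) - 2 := by
      rw [Nat.cast_sub hn]; norm_num
    have h2 : ((n - 1 : ℕ) : ℝ) = (n : ℝ) - 1 := by
      rw [Nat.cast_sub (by omega)]; norm_num
    rw [h1, h2]
    simp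
    ring

theorem simpleRD_pos (hn : 2 ≤ n) (i : Fin n) : (simpleRD hn i).Pos := by
  rw [RootD.Pos, simpleRD_rho]
  exact one_pos

theorem rwd_sgnB_not (b : Bool) : sgnB (!b) = - sgnB b := by
  cases b <;> simp [sgnB]

theorem rootD_neg_vec (β : RootD n) : β.neg.vec = - β.vec := by
  funext k
  simp only [RootD.vec, RootD.neg, rwd_sgnB_not, Pi.neg_apply]
  split_ifs <;> ring

theorem rwd_neg_neg (β : RootD n) : β.neg.neg = β := by
  cases β
  simp [RootD.neg]

theorem rwd_rho_lt {i j : Fin n} (h : i < j) : rhoV n j < rhoV n i := by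
  simp only [rhoV]
  have : ((i : ℕ) : ℝ) < ((j : ℕ) : ℝ) := by exact_mod_cast h
  linarith

theorem rwd_rho_nonneg (i : Fin n) : 0 ≤ rhoV n i := by
  simp only [rhoV]
  have : ((i : ℕ) : ℝ) + 1 ≤ (n : ℝ) := by exact_mod_cast i.2
  linarith

/-- the sign of a root is the sign of its first entry -/
theorem rwd_pos_iff (i j : Fin n) (h : i < j) (s t : Bool) :
    (⟨i, j, ne_of_lt h, s, t⟩ : RootD n).Pos ↔ s = false := by
  rw [RootD.Pos, rwd_dot_vec]
  have h1 := rwd_rho_lt h
  have h2 := rwd_rho_nonneg j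
  cases s <;> cases t <;> simp [sgnB] <;> linarith

theorem rwd_pos_iff' (i j : Fin n) (h : j < i) (s t : Bool) :
    (⟨i, j, ne_of_gt h, s, t⟩ : RootD n).Pos ↔ t = false := by
  rw [RootD.Pos, rwd_dot_vec]
  have h1 := rwd_rho_lt h
  have h2 := rwd_rho_nonneg i
  cases s <;> cases t <;> simp [sgnB] <;> linarith

theorem rootD_pos_or_neg (β : RootD n) : β.Pos ∨ β.neg.Pos := by
  obtain ⟨i, j, hne, s, t⟩ := β
  rcases lt_or_gt_of_ne hne with h | h
  · simp only [RootD.neg]
    rw [rwd_pos_iff i j h, rwd_pos_iff i j h]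
    cases s <;> simp
  · simp only [RootD.neg]
    rw [rwd_pos_iff' i j h, rwd_pos_iff' i j h]
    cases t <;> simp

/-! ## generation -/

theorem rwd_lt2 (hn : 2 ≤ n) : n - 2 < n := by omega

theorem rwd_lt1 (hn : 2 ≤ n) : n - 1 < n := by omega

theorem rwd_gen_minus_aux (hn : 2 ≤ n) (d : ℕ) : ∀ (a b : Fin n) (h : a < b), (b : ℕ) - a = d + 1 →
    GenPos hn (rootVec ⟨a, b, ne_of_lt h, false, true⟩) := by
  induction d with
  | zero =>
    intro a b h hd
    have hab : (a : ℕ) < b := h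
    have hlt : (a : ℕ) + 1 < n := by have := b.2; omega
    have hb : b = ⟨a + 1, hlt⟩ := Fin.ext (by simp only; omega)
    subst hb
    have := GenPos.simple (hn := hn) a
    rwa [rwd_simpleRD_lt hn a hlt] at this
  | succ d ih =>
    intro a b h hd
    have hab : (a : ℕ) < b := h
    have hlt : (a : ℕ) + 1 < n := by have := b.2; omega
    have hac : a < (⟨a + 1, hlt⟩ : Fin n) := by
      show (a : ℕ) < a + 1
      omega
    have hcb : (⟨a + 1, hlt⟩ : Fin n) < b := by
      show (a : ℕ) + 1 < b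
      omega
    have h1 : GenPos hn (rootVec ⟨a, ⟨a + 1, hlt⟩, ne_of_lt hac, false, true⟩) := by
      have := GenPos.simple (hn := hn) a
      rwa [rwd_simpleRD_lt hn a hlt] at this
    have h2 := ih ⟨a + 1, hlt⟩ b hcb (by simp only; omega)
    have h3 := rwd_chain a ⟨a + 1, hlt⟩ b (ne_of_lt hac) (ne_of_lt hcb) (ne_of_lt h) false true true
    rw [← h3]
    exact GenPos.bracket _ _ h1 h2

/-- `e_a - e_b` -/
theorem rwd_gen_minus (hn : 2 ≤ n) (a b : Fin n) (h : a < b) :
    GenPos hn (rootVec ⟨a, b, ne_of_lt h, false, true⟩) := by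
  have hab : (a : ℕ) < b := h
  exact rwd_gen_minus_aux hn ((b : ℕ) - a - 1) a b h (by omega)

/-- `e_a + e_(n-1)` -/
theorem rwd_gen_plus_last (hn : 2 ≤ n) (a : Fin n) (h : a < (⟨n - 1, by omega⟩ : Fin n)) :
    GenPos hn (rootVec ⟨a, ⟨n - 1, by omega⟩, ne_of_lt h, false, false⟩) := by
  have ha : (a : ℕ) < n - 1 := h
  have hML : (⟨n - 2, by omega⟩ : Fin n) < (⟨n - 1, by omega⟩ : Fin n) := by
    show n - 2 < n - 1
    omega
  have h0 : GenPos hn (rootVec ⟨⟨n - 2, by omega⟩, ⟨n - 1, by omega⟩, ne_of_lt hML,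
      false, false⟩) := by
    have := GenPos.simple (hn := hn) ⟨n - 1, by omega⟩
    rwa [rwd_simpleRD_last hn _ (by simp only; omega)] at this
  by_cases hM : (a : ℕ) = n - 2
  · have : a = ⟨n - 2, rwd_lt2 hn⟩ := Fin.ext hM
    subst this
    exact h0
  · have haM : a < (⟨n - 2, by omega⟩ : Fin n) := by
      show (a : ℕ) < n - 2
      omega
    have h1 := rwd_gen_minus hn a _ haM
    have h3 := rwd_chain a ⟨n - 2, by omega⟩ ⟨n - 1, by omega⟩ (ne_of_lt haM) (ne_of_lt hML)
      (ne_of_lt h) false true false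
    rw [← h3]
    exact GenPos.bracket _ _ h1 h0

/-- `e_a + e_b` -/
theorem rwd_gen_plus (hn : 2 ≤ n) (a b : Fin n) (h : a < b) :
    GenPos hn (rootVec ⟨a, b, ne_of_lt h, false, false⟩) := by
  have hab : (a : ℕ) < b := h
  by_cases hL : (b : ℕ) = n - 1
  · have : b = ⟨n - 1, rwd_lt1 hn⟩ := Fin.ext hL
    subst this
    exact rwd_gen_plus_last hn a h
  · have hbL : b < (⟨n - 1, by omega⟩ : Fin n) := by
      show (b : ℕ) < n - 1
      have := b.2
      omega
    have haL : a < (⟨n - 1, by omega⟩ : Fin n) := h.trans hbL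
    have h1 := rwd_gen_plus_last hn a haL
    have h2 := GenPos.neg _ (rwd_gen_minus hn b _ hbL)
    rw [← rwd_rootVec_swap b ⟨n - 1, by omega⟩ (ne_of_lt hbL) false true] at h2
    have h3 := rwd_chain a ⟨n - 1, by omega⟩ b (ne_of_lt haL) (ne_of_gt hbL)
      (ne_of_lt h) false false false
    rw [← h3]
    exact GenPos.bracket _ _ h1 h2

/-- every positive root vector is an iterated bracket of simple root vectors, up to sign -/
theorem genPos_rootVec (hn : 2 ≤ n) (β : RootD n) (hβ : β.Pos) : GenPos hn (rootVec β) := by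
  obtain ⟨i, j, hne, s, t⟩ := β
  rcases lt_or_gt_of_ne hne with h | h
  · have hs := (rwd_pos_iff i j h s t).1 hβ
    subst hs
    cases t
    · exact rwd_gen_plus hn i j h
    · exact rwd_gen_minus hn i j h
  · have ht := (rwd_pos_iff' i j h s t).1 hβ
    subst ht
    rw [rwd_rootVec_swap j i hne.symm false s]
    apply GenPos.neg
    cases s
    · exact rwd_gen_plus hn j i h
    · exact rwd_gen_minus hn j i h

/-- `[e_i, f_i] = - H_(α_i)` -/
theorem simple_bracket_self (hn : 2 ≤ n) (i : Fin n) :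
    rootVec (simpleRD hn i) * rootVec (simpleRD hn i).neg -
      rootVec (simpleRD hn i).neg * rootVec (simpleRD hn i) = - Hc (simpleRD hn i).vec := by
  rw [← rootVec_bracket, rootVec_conjTranspose]
  noncomm_ring

/-- `[e_i, f_j] = 0` for `i ≠ j` -/
theorem simple_bracket (hn : 2 ≤ n) (i j : Fin n) (hij : i ≠ j) :
    rootVec (simpleRD hn i) * rootVec (simpleRD hn j).neg -
      rootVec (simpleRD hn j).neg * rootVec (simpleRD hn i) = 0 := by
  have hij' : (i : ℕ) ≠ j := fun h => hij (Fin.ext h)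
  rw [rwd_rootVec_bracket]
  by_cases hi : (i : ℕ) + 1 < n <;> by_cases hj : (j : ℕ) + 1 < n
  · rw [rwd_simpleRD_lt hn i hi, rwd_simpleRD_lt hn j hj]
    simp [RootD.neg, Fin.ext_iff, hij']
  · rw [rwd_simpleRD_lt hn i hi, rwd_simpleRD_last hn j hj]
    simp only [RootD.neg, Fin.ext_iff]
    have h4 : (i : ℕ) ≠ n - 1 := by omega
    by_cases h2 : (i : ℕ) = n - 2
    · have : (⟨(i : ℕ) + 1, hi⟩ : Fin n) = ⟨n - 1, by omega⟩ := Fin.ext (by simp only; omega)
      rw [this]
      simp [rwd_W_self, h4]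
    · simp [h2, h4]
  · rw [rwd_simpleRD_last hn i hi, rwd_simpleRD_lt hn j hj]
    simp only [RootD.neg, Fin.ext_iff]
    have h4 : n - 1 ≠ (j : ℕ) := by omega
    by_cases h2 : (j : ℕ) = n - 2
    · have : (⟨(j : ℕ) + 1, hj⟩ : Fin n) = ⟨n - 1, by omega⟩ := Fin.ext (by simp only; omega)
      rw [this]
      simp [rwd_W_self, h4]
    · have h3 : n - 2 ≠ (j : ℕ) := fun h => h2 h.symm
      simp [h3, h4]
  · exfalso
    have := i.2
    have := j.2
    omega

/-! ## modules -/

theorem rwd_op_neg (R : StarRep Ty.D n ι) (X : Matrix (Ix n) (Ix n) ℂ) (a : ι → ℂ) :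
    R.op (-X) a = - R.op X a := by
  simp only [op_apply, map_neg, neg_mulVec]

theorem rwd_op_add (R : StarRep Ty.D n ι) (X Y : Matrix (Ix n) (Ix n) ℂ) (a : ι → ℂ) :
    R.op (X + Y) a = R.op X a + R.op Y a := by
  simp only [op_apply, map_add, add_mulVec]

theorem rwd_op_smul (R : StarRep Ty.D n ι) (c : ℂ) (X : Matrix (Ix n) (Ix n) ℂ) (a : ι → ℂ) :
    R.op (c • X) a = c • R.op X a := by
  simp only [op_apply, map_smul, smul_mulVec]

theorem rwd_op_zero (R : StarRep Ty.D n ι) (a : ι → ℂ) :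
    R.op (0 : Matrix (Ix n) (Ix n) ℂ) a = 0 := by
  simp only [op_apply, map_zero, zero_mulVec]

/-- a vector killed by the simple root vectors is primitive -/
theorem prim_of_simple (hn : 2 ≤ n) (R : StarRep Ty.D n ι) (a : ι → ℂ)
    (h : ∀ i, R.op (rootVec (simpleRD hn i)) a = 0) : a ∈ R.prim := by
  rw [mem_prim]
  intro β hβ
  have key : ∀ X, GenPos hn X → R.op X a = 0 := by
    intro X hX
    induction hX with
    | simple i => exact h i
    | bracket X Y hX hY h1 h2 =>
      rw [op_bracket R X Y (genPos_inG hn X hX) (genPos_inG hn Y hY), h1, h2, map_zero, map_zero,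
        sub_zero]
    | neg X _ h1 => rw [rwd_op_neg, h1, neg_zero]
  exact key _ (genPos_rootVec hn β hβ)

theorem free_fgen (hn : 2 ≤ n) (R : StarRep Ty.D n ι) (i : Fin n) (a : ι → ℂ) :
    R.toLin.free hn (fgen ℂ n i) a = R.op (rootVec (simpleRD hn i).neg) a := by
  simp only [LinRep.free, fgen, FreeAlgebra.lift_ι_apply]
  rfl

/-- more generally invariant subspaces are stable under the free algebra -/
theorem free_mem_inv (hn : 2 ≤ n) (R : StarRep Ty.D n ι) (S : Submodule ℂ (ι → ℂ)) (hS : R.Inv S)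
    (a : FreeAlgebra ℂ (Fin n)) (x : ι → ℂ) (hx : x ∈ S) : R.toLin.free hn a x ∈ S := by
  induction a using FreeAlgebra.induction generalizing x with
  | grade0 r =>
    rw [AlgHom.commutes, Module.algebraMap_end_apply]
    exact S.smul_mem r hx
  | grade1 i =>
    have := free_fgen hn R i x
    rw [fgen] at this
    rw [this]
    exact hS _ (isRootVec_rootVec _).1 x hx
  | mul a b ha hb =>
    rw [map_mul, Module.End.mul_apply]
    exact ha _ (hb x hx)
  | add a b ha hb =>
    rw [map_add, LinearMap.add_apply]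
    exact S.add_mem (ha x hx) (hb x hx)

theorem free_mem_cyc (hn : 2 ≤ n) (R : StarRep Ty.D n ι) (v : ι → ℂ) (a : FreeAlgebra ℂ (Fin n)) :
    R.toLin.free hn a v ∈ R.cyc v :=
  free_mem_inv hn R _ (cyc_inv R v) a v (mem_cyc R v)

theorem rwd_wordMon_cons (i : Fin n) (w : List (Fin n)) :
    wordMon ℂ n (i :: w) = fgen ℂ n i * wordMon ℂ n w := by
  simp only [wordMon, List.map_cons, List.prod_cons]

theorem rwd_wordMon_nil : wordMon ℂ n [] = 1 := by
  simp only [wordMon, List.map_nil, List.prod_nil]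

theorem rwd_wordMon_append (w w' : List (Fin n)) :
    wordMon ℂ n (w ++ w') = wordMon ℂ n w * wordMon ℂ n w' := by
  simp only [wordMon, List.map_append, List.prod_append]

/-- the weight of a word -/
theorem word_wt (hn : 2 ≤ n) (R : StarRep Ty.D n ι) (x : ι → ℂ) (χ : Vec n) (hx : x ∈ R.wt χ)
    (w : List (Fin n)) :
    R.toLin.free hn (wordMon ℂ n w) x ∈ R.wt (χ - ∑ i, (w.count i : ℝ) • (simpleRD hn i).vec) := by
  induction w with
  | nil =>
    rw [rwd_wordMon_nil, map_one]
    simpa using hx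
  | cons i w ih =>
    rw [rwd_wordMon_cons, map_mul, Module.End.mul_apply, free_fgen]
    have h1 := wt_shift R _ (simpleRD hn i).neg _ ih
    have h2 : χ - ∑ k, ((i :: w).count k : ℝ) • (simpleRD hn k).vec =
        χ - ∑ k, (w.count k : ℝ) • (simpleRD hn k).vec + (simpleRD hn i).neg.vec := by
      rw [rootD_neg_vec]
      have h3 : ∑ k, ((i :: w).count k : ℝ) • (simpleRD hn k).vec =
          ∑ k, (w.count k : ℝ) • (simpleRD hn k).vec + (simpleRD hn i).vec := by
        simp only [List.count_cons, Nat.cast_add, add_smul, Finset.sum_add_distrib]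
        congr 1
        rw [Finset.sum_eq_single i]
        · simp
        · intro k _ hk
          have : (i == k) = false := by simpa using fun h => hk h.symm
          simp [this]
        · simp
      rw [h3]
      abel
    rw [h2]
    exact h1

/-- the words span the free algebra -/
theorem wordMon_span : Submodule.span ℂ (Set.range (wordMon ℂ n)) = ⊤ := by
  rw [eq_top_iff]
  intro a ha0
  clear ha0
  induction a using FreeAlgebra.induction with
  | grade0 r =>
    rw [Algebra.algebraMap_eq_smul_one, ← rwd_wordMon_nil]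
    exact Submodule.smul_mem _ r (Submodule.subset_span ⟨[], rfl⟩)
  | grade1 i =>
    refine Submodule.subset_span ⟨[i], ?_⟩
    simp [wordMon, fgen]
  | mul a b ha hb =>
    have h1 := Submodule.mul_mem_mul ha hb
    rw [Submodule.span_mul_span] at h1
    refine Submodule.span_mono ?_ h1
    rintro _ ⟨_, ⟨w, rfl⟩, _, ⟨w', rfl⟩, rfl⟩
    exact ⟨w ++ w', rwd_wordMon_append w w'⟩
  | add a b ha hb => exact Submodule.add_mem _ ha hb

/-- the cyclic module of a highest weight vector consists of the `a · v`, `a` in the free algebra on the `f_i` -/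
theorem cyc_words (hn : 2 ≤ n) (R : StarRep Ty.D n ι) (v : ι → ℂ) (lam : Vec n) (h : IsHW R v lam)
    (x : ι → ℂ) (hx : x ∈ R.cyc v) : ∃ a : FreeAlgebra ℂ (Fin n), R.toLin.free hn a v = x := by
  -- the evaluation map
  let ev : FreeAlgebra ℂ (Fin n) →ₗ[ℂ] (ι → ℂ) :=
    (LinearMap.applyₗ v : Module.End ℂ (ι → ℂ) →ₗ[ℂ] (ι → ℂ)) ∘ₗ (R.toLin.free hn).toLinearMap
  have hev : ∀ a, ev a = R.toLin.free hn a v := fun a => rfl
  let Z : Submodule ℂ (ι → ℂ) := LinearMap.range ev
  have hZ : ∀ a, R.toLin.free hn a v ∈ Z := fun a => ⟨a, rfl⟩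
  obtain ⟨-, hvwt, hvprim⟩ := (isHW_iff R v lam).1 h
  -- reduction to words
  have words : ∀ T : (ι → ℂ) →ₗ[ℂ] (ι → ℂ),
      (∀ w : List (Fin n), T (R.toLin.free hn (wordMon ℂ n w) v) ∈ Z) → ∀ y ∈ Z, T y ∈ Z := by
    intro T hT y hy
    obtain ⟨a, rfl⟩ := hy
    have ha : a ∈ Submodule.span ℂ (Set.range (wordMon ℂ n)) := by
      rw [wordMon_span]; trivial
    have hle : Submodule.span ℂ (Set.range (wordMon ℂ n)) ≤ Z.comap (T ∘ₗ ev) := by
      rw [Submodule.span_le]
      rintro _ ⟨w, rfl⟩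
      exact hT w
    exact hle ha
  -- the stabiliser of `Z`
  let G : Submodule ℂ (Matrix (Ix n) (Ix n) ℂ) :=
    { carrier := {X | ∀ y ∈ Z, R.op X y ∈ Z}
      add_mem' := by
        intro X Y hX hY y hy
        rw [rwd_op_add]
        exact Z.add_mem (hX y hy) (hY y hy)
      zero_mem' := by
        intro y _
        rw [rwd_op_zero]
        exact Z.zero_mem
      smul_mem' := by
        intro c X hX y hy
        rw [rwd_op_smul]
        exact Z.smul_mem c (hX y hy) }
  have hGbr : ∀ X Y, Ty.D.InG X → Ty.D.InG Y → X ∈ G → Y ∈ G → X * Y - Y * X ∈ G := by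
    intro X Y iX iY hX hY y hy
    rw [op_bracket R X Y iX iY]
    exact Z.sub_mem (hX _ (hY y hy)) (hY _ (hX y hy))
  have hH : ∀ t : Vec n, Hc t ∈ G := by
    intro t
    refine words (R.op (Hc t)) ?_
    intro w
    have h1 := word_wt hn R v lam hvwt w
    rw [mem_wt] at h1
    rw [h1 t]
    exact Z.smul_mem _ (hZ _)
  have hF : ∀ i, rootVec (simpleRD hn i).neg ∈ G := by
    intro i y hy
    obtain ⟨a, rfl⟩ := hy
    rw [hev, ← free_fgen, ← Module.End.mul_apply, ← map_mul]
    exact hZ _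
  have hE : ∀ i, rootVec (simpleRD hn i) ∈ G := by
    intro i
    refine words (R.op (rootVec (simpleRD hn i))) ?_
    intro w
    induction w with
    | nil =>
      rw [rwd_wordMon_nil, map_one, Module.End.one_apply,
        (mem_prim R v).1 hvprim _ (simpleRD_pos hn i)]
      exact Z.zero_mem
    | cons j w ih =>
      rw [rwd_wordMon_cons, map_mul, Module.End.mul_apply, free_fgen]
      have hb := op_bracket R (rootVec (simpleRD hn i)) (rootVec (simpleRD hn j).neg)
        (isRootVec_rootVec _).1 (isRootVec_rootVec _).1 (R.toLin.free hn (wordMon ℂ n w) v)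
      have hb' : R.op (rootVec (simpleRD hn i)) (R.op (rootVec (simpleRD hn j).neg)
          (R.toLin.free hn (wordMon ℂ n w) v)) =
          R.op (rootVec (simpleRD hn i) * rootVec (simpleRD hn j).neg -
            rootVec (simpleRD hn j).neg * rootVec (simpleRD hn i))
            (R.toLin.free hn (wordMon ℂ n w) v) +
          R.op (rootVec (simpleRD hn j).neg) (R.op (rootVec (simpleRD hn i))
            (R.toLin.free hn (wordMon ℂ n w) v)) := by
        rw [hb]; abel
      rw [hb']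
      refine Z.add_mem ?_ (hF j _ ih)
      by_cases hij : i = j
      · subst hij
        rw [simple_bracket_self, rwd_op_neg]
        exact Z.neg_mem (hH _ _ (hZ _))
      · rw [simple_bracket hn i j hij, rwd_op_zero]
        exact Z.zero_mem
  have hpos : ∀ X, GenPos hn X → X ∈ G ∧ Xᴴ ∈ G := by
    intro X hX
    induction hX with
    | simple i =>
      refine ⟨hE i, ?_⟩
      rw [rootVec_conjTranspose]
      exact G.neg_mem (hF i)
    | bracket X Y hX hY h1 h2 =>
      have iX := genPos_inG hn X hX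
      have iY := genPos_inG hn Y hY
      refine ⟨hGbr X Y iX iY h1.1 h2.1, ?_⟩
      rw [conjTranspose_sub, conjTranspose_mul, conjTranspose_mul]
      exact hGbr _ _ (inG_conjTranspose Y iY) (inG_conjTranspose X iX) h2.2 h1.2
    | neg X _ h1 =>
      refine ⟨G.neg_mem h1.1, ?_⟩
      rw [conjTranspose_neg]
      exact G.neg_mem h1.2
  have hroot : ∀ β : RootD n, rootVec β ∈ G := by
    intro β
    rcases rootD_pos_or_neg β with hβ | hβ
    · exact (hpos _ (genPos_rootVec hn β hβ)).1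
    · have h1 := (hpos _ (genPos_rootVec hn β.neg hβ)).2
      rw [rootVec_conjTranspose, rwd_neg_neg] at h1
      have h2 := G.neg_mem h1
      rwa [neg_neg] at h2
  have hInv : R.Inv Z := by
    intro X hX
    have h1 := inG_span X hX
    have hle : Submodule.span ℂ ({Y | ∃ x : Vec n, Y = Hc x} ∪
        {Y | ∃ β : RootD n, Y = rootVec β}) ≤ G := by
      rw [Submodule.span_le]
      rintro Y (⟨t, rfl⟩ | ⟨β, rfl⟩)
      · exact hH t
      · exact hroot β
    exact hle h1
  have hv : v ∈ Z := by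
    have := hZ 1
    rwa [map_one, Module.End.one_apply] at this
  obtain ⟨a, ha⟩ := cyc_le R v Z hInv hv hx
  exact ⟨a, ha⟩

end Claimed.Agent.R282
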