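import Claimed.Agent.R282.Rep.R.Exist.Lam
import Claimed.Agent.R282.Rep.R.Exist.Spin

/-!
# Row 282, Rep, PACKAGE BP-REP-EXIST : existence of highest weight vectors (statement by helper103; blueprint and glue by helper178)

Files: `Exist/Car.lean` (abstract CAR systems: existence, `dΓ`, wedge vectors), `Exist/Dec.lean` (positive roots; dominant weights are sums of `rexOm n k`, `rexSp n s`),
`Exist/Lam.lean` (`ΛE`, weights `e_0 + .. + e_(k-1)`), `Exist/Spin.lean` (spin representation, weights `(1/2,..,1/2,±1/2)`).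
Here: the set of `lam` with a highest weight vector in some `*`-representation is an additive submonoid (`isHW_kron`), hence contains all `halfV L`.  This file is sorry-free.
-/

set_option autoImplicit false

namespace Claimed.Agent.R282

open Claims.C0456 Matrix

variable {n : ℕ}
variable {ι ι' ι₁ ι₂ ι₃ : Type} [Fintype ι] [DecidableEq ι] [Fintype ι'] [DecidableEq ι']
  [Fintype ι₁] [DecidableEq ι₁] [Fintype ι₂] [DecidableEq ι₂] [Fintype ι₃] [DecidableEq ι₃]

/-- `lam` is the weight of a highest weight vector in some `*`-representation -/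
def RexHas (lam : Vec n) : Prop :=
  ∃ (ι : Type) (_ : Fintype ι) (_ : DecidableEq ι) (R : StarRep Ty.D n ι) (v : ι → ℂ), IsHW R v lam

/-- the trivial representation -/
noncomputable def rexTriv (n : ℕ) : StarRep Ty.D n (Fin 1) where
  ρ := 0
  bracket := by intro X Y _ _; simp
  star := by intro X _; simp

theorem rex_triv_isHW : IsHW (rexTriv n) (fun _ => 1) (0 : Vec n) where
  ne := by
    intro h
    have := congrFun h 0
    simp at this
  wt := by
    intro x
    have : dot (0 : Vec n) x = 0 := by simp [dot]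
    simp [rexTriv, this]
  top := by
    intro β E _ _
    simp [rexTriv]

/-- the submonoid of highest weights -/
def rexMon (n : ℕ) : AddSubmonoid (Vec n) where
  carrier := {lam | RexHas lam}
  zero_mem' := ⟨Fin 1, inferInstance, inferInstance, rexTriv n, _, rex_triv_isHW⟩
  add_mem' := by
    rintro a b ⟨ι₁, f₁, d₁, R₁, v₁, h₁⟩ ⟨ι₂, f₂, d₂, R₂, v₂, h₂⟩
    exact ⟨ι₁ × ι₂, inferInstance, inferInstance, R₁.kron R₂, tmul v₁ v₂, isHW_kron R₁ R₂ v₁ v₂ a b h₁ h₂⟩

theorem rex_om_mem (k : ℕ) (hk : k ≤ n) : rexOm n k ∈ rexMon n := by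
  obtain ⟨ι, f, d, ⟨C⟩⟩ := car_exists (Ix n)
  exact ⟨ι, f, d, C.lamRep, _, rex_lam_isHW C k hk⟩

theorem rex_sp_mem (s : Bool) : rexSp n s ∈ rexMon n := by
  obtain ⟨ι, f, d, ⟨C⟩⟩ := car_exists (Fin n)
  cases s with
  | false => exact ⟨ι, f, d, C.spinRep, _, rex_spin_isHW_plus C⟩
  | true =>
    rcases Nat.eq_zero_or_pos n with h0 | hn
    · subst h0
      have : rexSp 0 true = rexSp 0 false := Subsingleton.elim _ _
      rw [this]
      exact ⟨ι, f, d, C.spinRep, _, rex_spin_isHW_plus C⟩
    · exact ⟨ι, f, d, C.spinRep, _, rex_spin_isHW_minus C hn⟩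

/-- (R1) existence -/
theorem rep_exists (L : Fin n → ℤ) (hL : IsDominantWeight2 L) :
    ∃ (m : ℕ) (R : StarRep Ty.D n (Fin m)) (v : Fin m → ℂ), IsHW R v (halfV L) := by
  obtain ⟨ι, f, d, R, v, h⟩ := rex_decomp (rexMon n) rex_om_mem rex_sp_mem L hL
  exact ⟨Fintype.card ι, R.reindex (Fintype.equivFin ι), _, reindex_isHW R _ v _ h⟩

end Claimed.Agent.R282
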