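import Claimed.Agent.R282.Rep.R.Words

/-!
# Row 282, Rep, LEAF L-REP-IRR : cyclic modules of highest weight vectors (statements by helper103)

(W3) [shortcut: `cyc_words`, `word_wt` of `R/Words.lean` give everything at once for `n ≥ 2`; `n ≤ 1`: no roots, `g` = torus, `cyc v = ℂ v`.]  Direct route: `Z := span {f_(β₁) ⋯ f_(β_k) v}` (`f_β = op (rootVec β.neg)`, `β` positive) is stable under `op (Hc x)` (weights), `f_β`, and `e_β` (induction on `k`: `e f w = f e w + [e,f] w`, `[e_β, f_β']` is a torus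
element or a root vector or `0` by `inG_span`/weights; cleanest: prove `Z` stable under all `op X` by induction on the length with the statement "for all `X ∈ g`"; order the induction as in Humphreys 20.2).  So `Z = cyc v`, all weights are
`λ - ∑ β_i` and the weight space of `λ` is `ℂ v`.
(R2) `S ≤ cyc v` invariant; `S' = cyc v ⊓ orthC S` is invariant (`Api`); `v = a + b`; the weight `λ` components: `a, b ∈ ℂ v`; so `v ∈ S` or `v ∈ S'`.
(R3) direct sum representation on `ι ⊕ ι'` (or work with the graph): `Γ = cyc (v, v')`; the projections `Γ → cyc v`, `Γ → cyc v'` are onto; kernels are invariant subspaces of irreducible modules not containing the top weight. Extend `Φ` by `0` on `orthC (cyc v)`.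
(R3') `e = e_β`, `f = e^*`, `h = Hc β.vec`: `0 ≤ ‖f v‖² = ⟨v, e f v⟩ = ⟨λ,β⟩ ‖v‖²` and integrality from `IsSl2Triple.HasPrimitiveVectorWith.exists_nat` (Lie ring `Module.End ℂ (ι → ℂ)`).
-/

set_option autoImplicit false

namespace Claimed.Agent.R282

open Claims.C0456 Matrix

variable {n : ℕ}
variable {ι ι' ι₁ ι₂ ι₃ : Type} [Fintype ι] [DecidableEq ι] [Fintype ι'] [DecidableEq ι']
  [Fintype ι₁] [DecidableEq ι₁] [Fintype ι₂] [DecidableEq ι₂] [Fintype ι₃] [DecidableEq ι₃]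

/-! ## small facts -/

theorem rir_dot_vec (β : RootD n) (x : Vec n) :
    dot β.vec x = sgnB β.si * x β.i + sgnB β.sj * x β.j := by
  unfold dot RootD.vec
  simp only [add_mul, ite_mul, zero_mul, Finset.sum_add_distrib, Finset.sum_ite_eq',
    Finset.mem_univ, if_true]

theorem rir_op_add {ty : Ty} (R : StarRep ty n ι) (X Y : Matrix (Ix n) (Ix n) ℂ) (a : ι → ℂ) :
    R.op (X + Y) a = R.op X a + R.op Y a := by
  rw [op_apply, op_apply, op_apply, map_add, Matrix.add_mulVec]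

theorem rir_op_smul {ty : Ty} (R : StarRep ty n ι) (c : ℂ) (X : Matrix (Ix n) (Ix n) ℂ) (a : ι → ℂ) :
    R.op (c • X) a = c • R.op X a := by
  rw [op_apply, op_apply, map_smul, Matrix.smul_mulVec]

theorem rir_op_zero {ty : Ty} (R : StarRep ty n ι) (a : ι → ℂ) :
    R.op (0 : Matrix (Ix n) (Ix n) ℂ) a = 0 := by
  rw [op_apply, map_zero, Matrix.zero_mulVec]

theorem rir_op_neg {ty : Ty} (R : StarRep ty n ι) (X : Matrix (Ix n) (Ix n) ℂ) (a : ι → ℂ) :
    R.op (-X) a = - R.op X a := by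
  rw [op_apply, op_apply, map_neg, Matrix.neg_mulVec]

/-- nondegeneracy of the Hermitian form -/
theorem rir_ext_dot {x y : ι → ℂ} (h : ∀ a : ι → ℂ, star a ⬝ᵥ x = star a ⬝ᵥ y) : x = y := by
  have h1 := h (x - y)
  rw [← sub_eq_zero, ← dotProduct_sub, star_dot_self_eq_zero] at h1
  exact sub_eq_zero.1 h1

/-! ## `InQplus` -/

theorem rir_inQ_zero : InQplus (0 : Fin n → ℤ) := ⟨0, by simp⟩

theorem rir_inQ_add {x y : Fin n → ℤ} (hx : InQplus x) (hy : InQplus y) : InQplus (x + y) := by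
  obtain ⟨c, rfl⟩ := hx
  obtain ⟨d, rfl⟩ := hy
  exact ⟨c + d, by simp only [Pi.add_apply, add_smul, Finset.sum_add_distrib]⟩

theorem rir_inQ_root (i j : Fin n) (h : i < j) (b : Bool) : InQplus (posRoot2 i j b) := by
  classical
  refine ⟨Pi.single ⟨(i, j, b), h⟩ 1, ?_⟩
  rw [Finset.sum_eq_single (⟨(i, j, b), h⟩ : {r : Fin n × Fin n × Bool // r.1 < r.2.1})]
  · simp
  · intro r _ hr
    simp [Pi.single_eq_of_ne hr]
  · intro hr
    exact absurd (Finset.mem_univ _) hr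

theorem rir_inQ_nsmul {x : Fin n → ℤ} (hx : InQplus x) (k : ℕ) : InQplus (k • x) := by
  induction k with
  | zero => simpa using rir_inQ_zero
  | succ k ih => rw [succ_nsmul]; exact rir_inQ_add ih hx

theorem rir_inQ_sum {κ : Type} (s : Finset κ) (f : κ → Fin n → ℤ) (h : ∀ k ∈ s, InQplus (f k)) :
    InQplus (∑ k ∈ s, f k) := by
  classical
  induction s using Finset.induction_on with
  | empty => simpa using rir_inQ_zero
  | insert a s ha ih =>
    rw [Finset.sum_insert ha]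
    exact rir_inQ_add (h a (Finset.mem_insert_self a s))
      (ih fun k hk => h k (Finset.mem_insert_of_mem hk))

theorem rir_inQ_simple (hn : 2 ≤ n) (i : Fin n) : InQplus (2 • simpleRootD n i) := by
  by_cases h : (i : ℕ) + 1 < n
  · have e : 2 • simpleRootD n i = posRoot2 i ⟨i + 1, h⟩ false := by
      funext k
      simp only [Pi.smul_apply, simpleRootD, posRoot2, if_pos h, Fin.ext_iff, Bool.false_eq_true,
        if_false]
      split_ifs <;> simp
    rw [e]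
    exact rir_inQ_root _ _ (by rw [Fin.lt_def]; simp) _
  · have e : 2 • simpleRootD n i = posRoot2 ⟨n - 2, by omega⟩ ⟨n - 1, by omega⟩ true := by
      funext k
      have hk := k.2
      simp only [Pi.smul_apply, simpleRootD, posRoot2, if_neg h, Fin.ext_iff]
      have e1 : ((k : ℕ) + 2 = n) ↔ ((k : ℕ) = n - 2) := by omega
      have e2 : ((k : ℕ) + 1 = n) ↔ ((k : ℕ) = n - 1) := by omega
      simp only [e1, e2]
      simp
    rw [e]
    exact rir_inQ_root _ _ (by rw [Fin.lt_def]; simp; omega) _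

/-! ## the cyclic module is spanned by `v` and lower weight vectors -/

/-- the set of weight vectors strictly below `lam` -/
def rirLow (R : StarRep Ty.D n ι) (lam : Vec n) : Set (ι → ℂ) :=
  {y | ∃ γ : Fin n → ℤ, InQplus γ ∧ γ ≠ 0 ∧ y ∈ R.wt (lam - halfV γ)}

theorem rir_hw_wt {R : StarRep Ty.D n ι} {v : ι → ℂ} {lam : Vec n} (h : IsHW R v lam) :
    v ∈ R.wt lam := ((isHW_iff R v lam).1 h).2.1

theorem rir_halfV_word (hn : 2 ≤ n) (c : Fin n → ℕ) :
    halfV (∑ i, c i • (2 • simpleRootD n i)) = ∑ i, (c i : ℝ) • (simpleRD hn i).vec := by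
  funext k
  have e : (∑ i, c i • (2 • simpleRootD n i)) k = ∑ i, (c i : ℤ) * (2 * simpleRootD n i k) := by
    rw [Finset.sum_apply]
    refine Finset.sum_congr rfl fun i _ => ?_
    rw [Pi.smul_apply, Pi.smul_apply, nsmul_eq_mul, nsmul_eq_mul]
    norm_num
  unfold halfV
  rw [e, Finset.sum_apply]
  push_cast
  rw [Finset.sum_div]
  refine Finset.sum_congr rfl fun i _ => ?_
  rw [Pi.smul_apply, simpleRD_vec, smul_eq_mul]
  ring

theorem rir_dot_word (hn : 2 ≤ n) (c : Fin n → ℕ) :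
    dot (∑ i, (c i : ℝ) • (simpleRD hn i).vec) (rhoV n) = ∑ i, (c i : ℝ) := by
  have e : ∀ x y : Vec n, dot x y = x ⬝ᵥ y := fun _ _ => rfl
  rw [e, sum_dotProduct]
  refine Finset.sum_congr rfl fun i _ => ?_
  rw [smul_dotProduct, ← e, simpleRD_rho, smul_eq_mul, mul_one]

theorem rir_word_low (hn : 2 ≤ n) (R : StarRep Ty.D n ι) (v : ι → ℂ) (lam : Vec n)
    (h : IsHW R v lam) (w : List (Fin n)) (hw : w ≠ []) :
    R.toLin.free hn (wordMon ℂ n w) v ∈ rirLow R lam := by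
  refine ⟨∑ i, (w.count i) • (2 • simpleRootD n i),
    rir_inQ_sum _ _ fun i _ => rir_inQ_nsmul (rir_inQ_simple hn i) _, ?_, ?_⟩
  · intro h0
    have h1 := rir_halfV_word hn fun i => w.count i
    rw [h0] at h1
    have h2 := rir_dot_word hn fun i => w.count i
    rw [← h1] at h2
    have h3 : dot (halfV (0 : Fin n → ℤ)) (rhoV n) = 0 := by
      unfold dot halfV
      simp
    rw [h3] at h2
    obtain ⟨a, l, rfl⟩ := List.exists_cons_of_ne_nil hw
    have h4 : (1 : ℝ) ≤ ∑ i, (((a :: l).count i : ℕ) : ℝ) := by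
      refine le_trans ?_ (Finset.single_le_sum (f := fun i => (((a :: l).count i : ℕ) : ℝ))
        (fun i _ => Nat.cast_nonneg _) (Finset.mem_univ a))
      simp
    linarith
  · rw [rir_halfV_word hn fun i => w.count i]
    exact word_wt hn R v lam (rir_hw_wt h) w

theorem rir_cyc_le (R : StarRep Ty.D n ι) (v : ι → ℂ) (lam : Vec n) (h : IsHW R v lam) :
    R.cyc v ≤ Submodule.span ℂ {v} ⊔ Submodule.span ℂ (rirLow R lam) := by
  by_cases hn : 2 ≤ n
  · intro x hx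
    obtain ⟨a, rfl⟩ := cyc_words hn R v lam h x hx
    have ha : a ∈ Submodule.span ℂ (Set.range (wordMon ℂ n)) := by
      rw [wordMon_span]
      trivial
    clear hx
    induction ha using Submodule.span_induction with
    | mem a ha =>
      obtain ⟨w, rfl⟩ := ha
      by_cases hw : w = []
      · subst hw
        have e : wordMon ℂ n ([] : List (Fin n)) = 1 := by simp [wordMon]
        rw [e, map_one]
        exact Submodule.mem_sup_left (Submodule.mem_span_singleton_self v)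
      · exact Submodule.mem_sup_right (Submodule.subset_span (rir_word_low hn R v lam h w hw))
    | zero => simp
    | add a b _ _ iha ihb =>
      rw [map_add, LinearMap.add_apply]
      exact Submodule.add_mem _ iha ihb
    | smul c a _ iha =>
      rw [map_smul, LinearMap.smul_apply]
      exact Submodule.smul_mem _ c iha
  · refine le_trans (cyc_le R v (Submodule.span ℂ {v}) ?_ (Submodule.mem_span_singleton_self v))
      le_sup_left
    have hv : ∀ X, Ty.D.InG X → R.op X v ∈ Submodule.span ℂ {v} := by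
      intro X hX
      have hX' := inG_span X hX
      clear hX
      induction hX' using Submodule.span_induction with
      | mem X hX =>
        rcases hX with ⟨x, rfl⟩ | ⟨β, rfl⟩
        · rw [(mem_wt R lam v).1 (rir_hw_wt h) x]
          exact Submodule.smul_mem _ _ (Submodule.mem_span_singleton_self v)
        · exfalso
          have h1 := β.i.2
          have h2 := β.j.2
          exact β.ne (Fin.ext (by omega))
      | zero =>
        rw [rir_op_zero]
        exact Submodule.zero_mem _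
      | add X Y _ _ ihX ihY =>
        rw [rir_op_add]
        exact Submodule.add_mem _ ihX ihY
      | smul c X _ ihX =>
        rw [rir_op_smul]
        exact Submodule.smul_mem _ c ihX
    intro X hX a ha
    obtain ⟨c, rfl⟩ := Submodule.mem_span_singleton.1 ha
    rw [map_smul]
    exact Submodule.smul_mem _ c (hv X hX)

/-- a weight vector in the span of weight vectors of other weights is zero -/
theorem rir_zero_of_span {ty : Ty} (R : StarRep ty n ι) (χ : Vec n) (A : Set (ι → ℂ))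
    (hA : ∀ y ∈ A, ∃ χ', χ' ≠ χ ∧ y ∈ R.wt χ') (x : ι → ℂ) (hx : x ∈ R.wt χ)
    (hxA : x ∈ Submodule.span ℂ A) : x = 0 := by
  have h : ∀ y ∈ Submodule.span ℂ A, star x ⬝ᵥ y = 0 := by
    intro y hy
    induction hy using Submodule.span_induction with
    | mem y hy =>
      obtain ⟨χ', hne, hy'⟩ := hA y hy
      exact wt_orth R χ χ' hne.symm x y hx hy'
    | zero => exact dotProduct_zero _
    | add a b _ _ iha ihb => rw [dotProduct_add, iha, ihb, add_zero]
    | smul c a _ iha => rw [dotProduct_smul, iha, smul_zero]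
  exact (star_dot_self_eq_zero x).1 (h x hxA)

theorem rir_halfV_zero : halfV (0 : Fin n → ℤ) = 0 := by
  funext k
  simp [halfV]

/-- the top weight space of the cyclic module is the line `ℂ v` -/
theorem rir_top_line (R : StarRep Ty.D n ι) (v : ι → ℂ) (lam : Vec n) (h : IsHW R v lam)
    (x : ι → ℂ) (hx : x ∈ R.cyc v) (hxw : x ∈ R.wt lam) : ∃ c : ℂ, x = c • v := by
  obtain ⟨a, ha, y, hy, rfl⟩ := Submodule.mem_sup.1 (rir_cyc_le R v lam h hx)
  obtain ⟨c, rfl⟩ := Submodule.mem_span_singleton.1 ha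
  have hyw : y ∈ R.wt lam := by
    have := (R.wt lam).sub_mem hxw ((R.wt lam).smul_mem c (rir_hw_wt h))
    simpa using this
  have hy0 : y = 0 := by
    refine rir_zero_of_span R lam (rirLow R lam) ?_ y hyw hy
    rintro z ⟨γ, -, hγ0, hz⟩
    refine ⟨_, fun e => hγ0 ?_, hz⟩
    apply halfV_injective
    rw [rir_halfV_zero]
    have := sub_eq_self.1 e
    exact this
  exact ⟨c, by rw [hy0, add_zero]⟩

/-- all weights of the cyclic module are below `lam` -/
theorem rir_wt_below (R : StarRep Ty.D n ι) (v : ι → ℂ) (lam : Vec n) (h : IsHW R v lam)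
    (χ : Vec n) (x : ι → ℂ) (hx : x ∈ R.cyc v) (hxw : x ∈ R.wt χ) (hx0 : x ≠ 0) :
    ∃ γ : Fin n → ℤ, InQplus γ ∧ χ = lam - halfV γ := by
  by_contra hcon
  push Not at hcon
  apply hx0
  have hsp : x ∈ Submodule.span ℂ ({v} ∪ rirLow R lam) := by
    rw [Submodule.span_union]
    exact rir_cyc_le R v lam h hx
  refine rir_zero_of_span R χ _ ?_ x hxw hsp
  rintro y (rfl | ⟨γ, hγ, -, hy⟩)
  · exact ⟨lam, fun e => hcon 0 rir_inQ_zero (by rw [rir_halfV_zero, sub_zero, e]), rir_hw_wt h⟩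
  · exact ⟨lam - halfV γ, fun e => hcon γ hγ e.symm, hy⟩

/-- (R2) irreducibility of the cyclic module of a highest weight vector -/
theorem rep_irred (R : StarRep Ty.D n ι) (v : ι → ℂ) (lam : Vec n) (h : IsHW R v lam)
    (S : Submodule ℂ (ι → ℂ)) (hS : R.Inv S) (hle : S ≤ R.cyc v) : S = ⊥ ∨ S = R.cyc v := by
  obtain ⟨P, hP1, hP2, -, hP4, hP5⟩ := exists_proj R S hS
  have hw : P v ∈ R.wt lam := by
    rw [mem_wt]
    intro x
    rw [← hP4 _ (inG_Hc x), (mem_wt R lam v).1 (rir_hw_wt h) x, map_smul]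
  obtain ⟨c, hc⟩ := rir_top_line R v lam h (P v) (hle (hP1 v)) hw
  by_cases hc0 : c = 0
  · left
    rw [hc0, zero_smul] at hc
    have hv : v ∈ orthC S := by
      intro a ha
      rw [← hP2 a ha, hP5, hc, dotProduct_zero]
    have h1 : R.cyc v ≤ orthC S := cyc_le R v _ (inv_orthC R S hS) hv
    rw [eq_bot_iff, ← orthC_inf S]
    exact le_inf le_rfl (hle.trans h1)
  · right
    have hv : v ∈ S := by
      have h1 : v = c⁻¹ • P v := by rw [hc, smul_smul, inv_mul_cancel₀ hc0, one_smul]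
      rw [h1]
      exact S.smul_mem _ (hP1 v)
    exact le_antisymm hle (cyc_le R v S hS hv)

/-- (W3) the top weight; all weights are `≤` the highest weight; only doubled integral weights occur -/
theorem rep_top (R : StarRep Ty.D n ι) (v : ι → ℂ) (L : Fin n → ℤ) (h : IsHW R v (halfV L)) :
    R.mult (R.cyc v) (halfV L) = 1 ∧
      (∀ χ : Vec n, R.mult (R.cyc v) χ ≠ 0 → ∃ γ : Fin n → ℤ, χ = halfV γ ∧ InQplus (L - γ)) := by
  constructor
  · have e : R.cyc v ⊓ R.wt (halfV L) = Submodule.span ℂ {v} := by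
      apply le_antisymm
      · rintro x ⟨hx1, hx2⟩
        obtain ⟨c, rfl⟩ := rir_top_line R v _ h x hx1 hx2
        exact Submodule.smul_mem _ c (Submodule.mem_span_singleton_self v)
      · rw [Submodule.span_singleton_le_iff_mem]
        exact ⟨mem_cyc R v, rir_hw_wt h⟩
    unfold StarRep.mult
    rw [e]
    exact finrank_span_singleton h.ne
  · intro χ hχ
    have hne : R.cyc v ⊓ R.wt χ ≠ ⊥ := by
      intro e
      apply hχ
      unfold StarRep.mult
      rw [e]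
      exact finrank_bot ℂ _
    obtain ⟨x, ⟨hx1, hx2⟩, hx0⟩ := Submodule.exists_mem_ne_zero_of_ne_bot hne
    obtain ⟨γ, hγ, rfl⟩ := rir_wt_below R v _ h χ x hx1 hx2 hx0
    refine ⟨L - γ, (halfV_sub L γ).symm, ?_⟩
    rw [sub_sub_cancel]
    exact hγ

/-! ## dominance and integrality: `sl₂` -/

theorem rir_vec_dot_self (β : RootD n) : dot β.vec β.vec = 2 := by
  rw [rir_dot_vec]
  have hne := β.ne
  have hne' : β.j ≠ β.i := fun e => hne e.symm
  simp only [RootD.vec, if_true, if_neg hne, if_neg hne', add_zero, zero_add]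
  cases β.si <;> cases β.sj <;> simp [sgnB] <;> norm_num

theorem rir_dot_comm (x y : Vec n) : dot x y = dot y x := by
  unfold dot
  exact Finset.sum_congr rfl fun i _ => mul_comm _ _

section Sl2

attribute [local instance 100] LieRing.ofAssociativeRing

/-- `⟨lam, β⟩` is a natural number for every positive root -/
theorem rir_pair_nat (R : StarRep Ty.D n ι) (v : ι → ℂ) (lam : Vec n) (h : IsHW R v lam)
    (β : RootD n) (hβ : β.Pos) : ∃ k : ℕ, dot lam β.vec = k := by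
  obtain ⟨e, he⟩ : ∃ e : Module.End ℂ (ι → ℂ), e = R.op (rootVec β) := ⟨_, rfl⟩
  obtain ⟨f, hf⟩ : ∃ f : Module.End ℂ (ι → ℂ), f = R.op (rootVec β)ᴴ := ⟨_, rfl⟩
  obtain ⟨hh, hhh⟩ : ∃ hh : Module.End ℂ (ι → ℂ), hh = R.op (Hc β.vec) := ⟨_, rfl⟩
  have hE := isRootVec_rootVec β
  have hEs : Ty.D.InG (rootVec β)ᴴ := inG_conjTranspose _ hE.1
  have hH : Ty.D.InG (Hc β.vec) := inG_Hc β.vec
  have h_ef : ⁅e, f⁆ = hh := by
    refine LinearMap.ext fun a => ?_
    rw [LieRing.of_associative_ring_bracket, LinearMap.sub_apply, Module.End.mul_apply,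
      Module.End.mul_apply, he, hf, hhh, ← op_bracket R _ _ hE.1 hEs, rootVec_bracket]
  have h_he : ⁅hh, e⁆ = 2 • e := by
    refine LinearMap.ext fun a => ?_
    rw [LieRing.of_associative_ring_bracket, LinearMap.sub_apply, Module.End.mul_apply,
      Module.End.mul_apply, he, hhh, ← op_bracket R _ _ hH hE.1, hE.2 β.vec, rir_vec_dot_self,
      rir_op_smul, LinearMap.smul_apply, two_smul, ← two_smul ℂ]
    norm_num
  have hbr : Hc β.vec * (rootVec β)ᴴ - (rootVec β)ᴴ * Hc β.vec = (-2 : ℂ) • (rootVec β)ᴴ := by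
    have h1 := congrArg Matrix.conjTranspose (hE.2 β.vec)
    rw [conjTranspose_sub, conjTranspose_mul, conjTranspose_mul, Hc_conjTranspose,
      conjTranspose_smul, rir_vec_dot_self] at h1
    have h2 : star (((2 : ℝ) : ℂ)) = 2 := by simp
    rw [h2] at h1
    rw [neg_smul, ← h1]
    abel
  have h_hf : ⁅hh, f⁆ = -(2 • f) := by
    refine LinearMap.ext fun a => ?_
    rw [LieRing.of_associative_ring_bracket, LinearMap.sub_apply, Module.End.mul_apply,
      Module.End.mul_apply, hf, hhh, ← op_bracket R _ _ hH hEs, hbr,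
      rir_op_smul, LinearMap.neg_apply, LinearMap.smul_apply, two_smul, neg_smul, two_smul]
  have hv := (mem_wt R lam v).1 (rir_hw_wt h) β.vec
  by_cases h0 : hh = 0
  · refine ⟨0, ?_⟩
    rw [← hhh, h0, LinearMap.zero_apply] at hv
    have h1 := (smul_eq_zero.1 hv.symm).resolve_right h.ne
    rw [Nat.cast_zero]
    exact_mod_cast h1
  · have t : IsSl2Triple hh e f := ⟨h0, h_ef, h_he, h_hf⟩
    have P : t.HasPrimitiveVectorWith v ((dot lam β.vec : ℝ) : ℂ) := by
      refine ⟨h.ne, ?_, ?_⟩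
      · rw [Module.End.lie_apply, hhh]
        exact hv
      · rw [Module.End.lie_apply, he]
        exact h.top β _ hβ hE
    obtain ⟨k, hk⟩ := P.exists_nat
    exact ⟨k, by exact_mod_cast hk⟩

end Sl2

theorem rir_pos_minus (i j : Fin n) (hij : i < j) :
    (⟨i, j, ne_of_lt hij, false, true⟩ : RootD n).Pos := by
  unfold RootD.Pos
  rw [rir_dot_vec]
  have h1 : ((i : ℕ) : ℝ) < ((j : ℕ) : ℝ) := by exact_mod_cast hij
  simp only [sgnB, rhoV, Bool.false_eq_true, if_false, if_true]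
  linarith

theorem rir_pos_plus (i j : Fin n) (hij : i < j) :
    (⟨i, j, ne_of_lt hij, false, false⟩ : RootD n).Pos := by
  unfold RootD.Pos
  rw [rir_dot_vec]
  have h1 : ((i : ℕ) : ℝ) < ((j : ℕ) : ℝ) := by exact_mod_cast hij
  have h2 : ((j : ℕ) : ℝ) + 1 ≤ (n : ℝ) := by exact_mod_cast j.2
  simp only [sgnB, rhoV, Bool.false_eq_true, if_false]
  linarith

/-- (R3') the highest weight of a `*`-representation is dominant and integral -/
theorem rep_hw_dominant (hn : 2 ≤ n) (R : StarRep Ty.D n ι) (v : ι → ℂ) (lam : Vec n) (h : IsHW R v lam) :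
    ∃ L : Fin n → ℤ, IsDominantWeight2 L ∧ lam = halfV L := by
  have hm : ∀ i j : Fin n, i < j → ∃ a b : ℕ, lam i - lam j = a ∧ lam i + lam j = b := by
    intro i j hij
    obtain ⟨a, ha⟩ := rir_pair_nat R v lam h _ (rir_pos_minus i j hij)
    obtain ⟨b, hb⟩ := rir_pair_nat R v lam h _ (rir_pos_plus i j hij)
    rw [rir_dot_comm, rir_dot_vec] at ha hb
    simp only [sgnB, Bool.false_eq_true, if_false, if_true] at ha hb
    exact ⟨a, b, by linarith, by linarith⟩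
  have hint : ∀ i : Fin n, ∃ z : ℤ, 2 * lam i = z := by
    intro i
    have : Nontrivial (Fin n) := Fin.nontrivial_iff_two_le.2 hn
    obtain ⟨j, hj⟩ := exists_ne i
    rcases lt_or_gt_of_ne hj with hlt | hgt
    · obtain ⟨a, b, ha, hb⟩ := hm j i hlt
      exact ⟨(b : ℤ) - a, by push_cast; linarith⟩
    · obtain ⟨a, b, ha, hb⟩ := hm i j hgt
      exact ⟨(a : ℤ) + b, by push_cast; linarith⟩
  choose L hL using hint
  refine ⟨L, ⟨?_, ?_⟩, ?_⟩
  · intro i j
    rcases lt_trichotomy i j with hlt | rfl | hgt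
    · obtain ⟨a, b, ha, hb⟩ := hm i j hlt
      refine ⟨a, ?_⟩
      have e : ((L i - L j : ℤ) : ℝ) = (((a : ℤ) + a : ℤ) : ℝ) := by
        push_cast
        rw [← hL, ← hL]
        linarith
      exact_mod_cast e
    · simp
    · obtain ⟨a, b, ha, hb⟩ := hm j i hgt
      refine ⟨-(a : ℤ), ?_⟩
      have e : ((L i - L j : ℤ) : ℝ) = ((-(a : ℤ) + -(a : ℤ) : ℤ) : ℝ) := by
        push_cast
        rw [← hL, ← hL]
        linarith
      exact_mod_cast e
  · intro i j hij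
    obtain ⟨a, b, ha, hb⟩ := hm i j hij
    have ha0 : (0 : ℝ) ≤ a := Nat.cast_nonneg a
    have hb0 : (0 : ℝ) ≤ b := Nat.cast_nonneg b
    rw [abs_le]
    constructor
    · have e : ((-L i : ℤ) : ℝ) ≤ ((L j : ℤ) : ℝ) := by
        push_cast
        rw [← hL, ← hL]
        linarith
      exact_mod_cast e
    · have e : ((L j : ℤ) : ℝ) ≤ ((L i : ℤ) : ℝ) := by
        rw [← hL, ← hL]
        linarith
      exact_mod_cast e
  · funext i
    unfold halfV
    rw [← hL]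
    ring

/-! ## direct sums, uniqueness -/

/-- the direct sum of two `*`-representations -/
noncomputable def StarRep.rirSum {ty : Ty} (R : StarRep ty n ι) (R' : StarRep ty n ι') :
    StarRep ty n (ι ⊕ ι') where
  ρ :=
    { toFun := fun X => Matrix.fromBlocks (R.ρ X) 0 0 (R'.ρ X)
      map_add' := by
        intro X Y
        rw [map_add, map_add, Matrix.fromBlocks_add]
        simp
      map_smul' := by
        intro c X
        rw [map_smul, map_smul, RingHom.id_apply, Matrix.fromBlocks_smul]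
        simp }
  bracket := by
    intro X Y hX hY
    show Matrix.fromBlocks (R.ρ (X * Y - Y * X)) 0 0 (R'.ρ (X * Y - Y * X)) =
      Matrix.fromBlocks (R.ρ X) 0 0 (R'.ρ X) * Matrix.fromBlocks (R.ρ Y) 0 0 (R'.ρ Y) -
      Matrix.fromBlocks (R.ρ Y) 0 0 (R'.ρ Y) * Matrix.fromBlocks (R.ρ X) 0 0 (R'.ρ X)
    rw [R.bracket X Y hX hY, R'.bracket X Y hX hY, Matrix.fromBlocks_multiply,
      Matrix.fromBlocks_multiply, sub_eq_add_neg (Matrix.fromBlocks _ _ _ _), Matrix.fromBlocks_neg,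
      Matrix.fromBlocks_add]
    simp [sub_eq_add_neg]
  star := by
    intro X hX
    show Matrix.fromBlocks (R.ρ Xᴴ) 0 0 (R'.ρ Xᴴ) = (Matrix.fromBlocks (R.ρ X) 0 0 (R'.ρ X))ᴴ
    rw [R.star X hX, R'.star X hX, Matrix.fromBlocks_conjTranspose]
    simp

theorem rir_sum_op {ty : Ty} (R : StarRep ty n ι) (R' : StarRep ty n ι')
    (X : Matrix (Ix n) (Ix n) ℂ) (g : ι ⊕ ι' → ℂ) :
    (R.rirSum R').op X g = Sum.elim (R.op X (g ∘ Sum.inl)) (R'.op X (g ∘ Sum.inr)) := by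
  rw [op_apply, op_apply, op_apply]
  show (Matrix.fromBlocks (R.ρ X) 0 0 (R'.ρ X)).mulVec g = _
  rw [Matrix.fromBlocks_mulVec]
  simp

theorem rir_sum_hw (R : StarRep Ty.D n ι) (R' : StarRep Ty.D n ι') (v : ι → ℂ) (v' : ι' → ℂ)
    (lam : Vec n) (h : IsHW R v lam) (h' : IsHW R' v' lam) :
    IsHW (R.rirSum R') (Sum.elim v v') lam := by
  refine ⟨fun e => h.ne ?_, fun x => ?_, fun β E hβ hE => ?_⟩
  · funext i
    exact congrFun e (Sum.inl i)
  · have h1 := rir_sum_op R R' (Hc x) (Sum.elim v v')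
    rw [op_apply] at h1
    rw [h1, Sum.elim_comp_inl, Sum.elim_comp_inr, op_apply, op_apply, h.wt x, h'.wt x]
    funext i
    cases i <;> simp
  · have h1 := rir_sum_op R R' E (Sum.elim v v')
    rw [op_apply] at h1
    rw [h1, Sum.elim_comp_inl, Sum.elim_comp_inr, op_apply, op_apply, h.top β E hβ hE,
      h'.top β E hβ hE]
    funext i
    cases i <;> simp

/-- adjoint of a linear map for the standard Hermitian forms -/
theorem rir_exists_adj (Φ : (ι → ℂ) →ₗ[ℂ] (ι' → ℂ)) :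
    ∃ Ψ : (ι' → ℂ) →ₗ[ℂ] (ι → ℂ), ∀ a b, star (Φ a) ⬝ᵥ b = star a ⬝ᵥ Ψ b := by
  refine ⟨Matrix.toLin' (LinearMap.toMatrix' Φ)ᴴ, fun a b => ?_⟩
  rw [Matrix.toLin'_apply]
  conv_lhs => rw [← Matrix.toLin'_toMatrix' Φ, Matrix.toLin'_apply]
  rw [Matrix.star_mulVec, Matrix.dotProduct_mulVec]

theorem rir_star_dot_self (a : ι → ℂ) : star a ⬝ᵥ a = ((∑ i, ‖a i‖ ^ 2 : ℝ) : ℂ) := by
  unfold dotProduct
  push_cast
  refine Finset.sum_congr rfl fun i _ => ?_
  rw [Pi.star_apply, Complex.star_def, Complex.conj_mul']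

theorem rir_normSq_pos {a : ι → ℂ} (ha : a ≠ 0) : 0 < ∑ i, ‖a i‖ ^ 2 := by
  refine lt_of_le_of_ne (Finset.sum_nonneg fun i _ => by positivity) fun e => ha ?_
  rw [← star_dot_self_eq_zero, rir_star_dot_self, ← e]
  simp

/-- an equivariant map which does not kill the highest weight vector -/
theorem rir_proj {κ : Type} [Fintype κ] [DecidableEq κ] (RS : StarRep Ty.D n κ)
    (R : StarRep Ty.D n ι) (w : κ → ℂ) (lam : Vec n) (hW : IsHW RS w lam)
    (p : (κ → ℂ) →ₗ[ℂ] (ι → ℂ)) (hp : ∀ X g, p (RS.op X g) = R.op X (p g)) (hpw : p w ≠ 0) :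
    (∀ g ∈ RS.cyc w, p g = 0 → g = 0) ∧ (RS.cyc w).map p = R.cyc (p w) := by
  constructor
  · have hK : RS.Inv (RS.cyc w ⊓ LinearMap.ker p) := by
      rintro X hX g ⟨hg1, hg2⟩
      refine ⟨cyc_inv RS w X hX g hg1, ?_⟩
      have hg3 : p g = 0 := hg2
      show p (RS.op X g) = 0
      rw [hp, hg3, map_zero]
    rcases rep_irred RS w lam hW _ hK inf_le_left with h0 | h1
    · intro g hg hg0
      have : g ∈ RS.cyc w ⊓ LinearMap.ker p := ⟨hg, hg0⟩
      rw [h0] at this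
      exact this
    · exfalso
      have : w ∈ RS.cyc w ⊓ LinearMap.ker p := by
        rw [h1]
        exact mem_cyc RS w
      exact hpw this.2
  · apply le_antisymm
    · rw [Submodule.map_le_iff_le_comap]
      refine cyc_le RS w _ ?_ (mem_cyc R (p w))
      intro X hX g hg
      rw [Submodule.mem_comap] at hg ⊢
      rw [hp]
      exact cyc_inv R (p w) X hX _ hg
    · refine cyc_le R (p w) _ ?_ (Submodule.mem_map_of_mem (mem_cyc RS w))
      rintro X hX a ha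
      obtain ⟨g, hg, rfl⟩ := Submodule.mem_map.1 ha
      rw [← hp]
      exact Submodule.mem_map_of_mem (cyc_inv RS w X hX g hg)

/-- (R3) uniqueness, strong form: the intertwiner vanishes on the orthogonal complement and is a similitude on `cyc v`
(`Φᴴ Φ` commutes with the action and fixes the line `ℂ v`, so it is the scalar `c = ‖v'‖² / ‖v‖²` on `cyc v`). -/
theorem rep_unique_perp (R : StarRep Ty.D n ι) (R' : StarRep Ty.D n ι') (v : ι → ℂ) (v' : ι' → ℂ)
    (lam : Vec n) (h : IsHW R v lam) (h' : IsHW R' v' lam) :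
    ∃ Φ : (ι → ℂ) →ₗ[ℂ] (ι' → ℂ), Φ v = v' ∧ (∀ X, Ty.D.InG X → ∀ a, Φ (R.op X a) = R'.op X (Φ a)) ∧
      (∀ a ∈ orthC (R.cyc v), Φ a = 0) ∧ (∀ a ∈ R.cyc v, Φ a = 0 → a = 0) ∧
      (R.cyc v).map Φ = R'.cyc v' ∧
      ∃ c : ℝ, 0 < c ∧ ∀ a ∈ R.cyc v, ∀ b ∈ R.cyc v, star (Φ a) ⬝ᵥ Φ b = (c : ℂ) * (star a ⬝ᵥ b) := by
  obtain ⟨RS, hRS⟩ : ∃ RS : StarRep Ty.D n (ι ⊕ ι'), RS = R.rirSum R' := ⟨_, rfl⟩
  obtain ⟨w, hw⟩ : ∃ w : ι ⊕ ι' → ℂ, w = Sum.elim v v' := ⟨_, rfl⟩
  have hW : IsHW RS w lam := by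
    rw [hRS, hw]
    exact rir_sum_hw R R' v v' lam h h'
  obtain ⟨p₁, hp₁⟩ : ∃ p₁ : (ι ⊕ ι' → ℂ) →ₗ[ℂ] (ι → ℂ), ∀ g, p₁ g = g ∘ Sum.inl :=
    ⟨LinearMap.funLeft ℂ ℂ Sum.inl, fun g => rfl⟩
  obtain ⟨p₂, hp₂⟩ : ∃ p₂ : (ι ⊕ ι' → ℂ) →ₗ[ℂ] (ι' → ℂ), ∀ g, p₂ g = g ∘ Sum.inr :=
    ⟨LinearMap.funLeft ℂ ℂ Sum.inr, fun g => rfl⟩
  have he₁ : ∀ X g, p₁ (RS.op X g) = R.op X (p₁ g) := by
    intro X g
    rw [hp₁, hp₁, hRS, rir_sum_op, Sum.elim_comp_inl]
  have he₂ : ∀ X g, p₂ (RS.op X g) = R'.op X (p₂ g) := by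
    intro X g
    rw [hp₂, hp₂, hRS, rir_sum_op, Sum.elim_comp_inr]
  have hpw₁ : p₁ w = v := by rw [hp₁, hw, Sum.elim_comp_inl]
  have hpw₂ : p₂ w = v' := by rw [hp₂, hw, Sum.elim_comp_inr]
  obtain ⟨a₁, b₁⟩ := rir_proj RS R w lam hW p₁ he₁ (by rw [hpw₁]; exact h.ne)
  obtain ⟨a₂, b₂⟩ := rir_proj RS R' w lam hW p₂ he₂ (by rw [hpw₂]; exact h'.ne)
  rw [hpw₁] at b₁
  rw [hpw₂] at b₂
  obtain ⟨Γ, hΓ⟩ : ∃ Γ : Submodule ℂ (ι ⊕ ι' → ℂ), Γ = RS.cyc w := ⟨_, rfl⟩
  rw [← hΓ] at a₁ a₂ b₁ b₂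
  have hΓinv : RS.Inv Γ := by rw [hΓ]; exact cyc_inv RS w
  have hwΓ : w ∈ Γ := by rw [hΓ]; exact mem_cyc RS w
  have hker : LinearMap.ker (p₁ ∘ₗ Γ.subtype) = ⊥ := by
    rw [LinearMap.ker_eq_bot']
    intro γ hγ
    exact Subtype.ext (a₁ γ.1 γ.2 hγ)
  obtain ⟨g, hg⟩ := LinearMap.exists_leftInverse_of_injective (p₁ ∘ₗ Γ.subtype) hker
  obtain ⟨P, hP1, hP2, hP3, hP4, -⟩ := exists_proj R (R.cyc v) (cyc_inv R v)
  obtain ⟨Φ, hΦ⟩ : ∃ Φ : (ι → ℂ) →ₗ[ℂ] (ι' → ℂ), ∀ a, Φ a = p₂ (g (P a) : ι ⊕ ι' → ℂ) :=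
    ⟨p₂ ∘ₗ Γ.subtype ∘ₗ g ∘ₗ P, fun a => rfl⟩
  have key : ∀ γ ∈ Γ, Φ (p₁ γ) = p₂ γ := by
    intro γ hγ
    have h1 : p₁ γ ∈ R.cyc v := by
      rw [← b₁]
      exact Submodule.mem_map_of_mem hγ
    have h2 : g (p₁ γ) = ⟨γ, hγ⟩ := LinearMap.congr_fun hg ⟨γ, hγ⟩
    rw [hΦ, hP2 _ h1, h2]
  have hlift : ∀ a ∈ R.cyc v, ∃ γ ∈ Γ, p₁ γ = a := by
    intro a ha
    rw [← b₁] at ha
    exact Submodule.mem_map.1 ha
  have hΦP : ∀ a, Φ (P a) = Φ a := fun a => by rw [hΦ, hΦ, hP2 _ (hP1 a)]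
  have hΦv : Φ v = v' := by rw [← hpw₁, key w hwΓ, hpw₂]
  have hΦe : ∀ X, Ty.D.InG X → ∀ a, Φ (R.op X a) = R'.op X (Φ a) := by
    intro X hX a
    obtain ⟨γ, hγ, hγa⟩ := hlift (P a) (hP1 a)
    rw [← hΦP (R.op X a), hP4 X hX a, ← hγa, ← he₁, key _ (hΓinv X hX γ hγ), he₂, ← key γ hγ, hγa,
      hΦP]
  have hΦ0 : ∀ a ∈ orthC (R.cyc v), Φ a = 0 := by
    intro a ha
    rw [hΦ, hP3 a ha, map_zero]
    exact map_zero p₂
  refine ⟨Φ, hΦv, hΦe, hΦ0, ?_, ?_, ?_⟩
  · intro a ha h0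
    obtain ⟨γ, hγ, rfl⟩ := hlift a ha
    rw [key γ hγ] at h0
    rw [a₂ γ hγ h0, map_zero]
  · rw [← b₂, ← b₁]
    ext b
    simp only [Submodule.mem_map]
    constructor
    · rintro ⟨_, ⟨γ, hγ, rfl⟩, rfl⟩
      exact ⟨γ, hγ, (key γ hγ).symm⟩
    · rintro ⟨γ, hγ, rfl⟩
      exact ⟨p₁ γ, ⟨γ, hγ, rfl⟩, key γ hγ⟩
  · obtain ⟨Ψ, hΨ⟩ := rir_exists_adj Φ
    have hΨe : ∀ X, Ty.D.InG X → ∀ b, Ψ (R'.op X b) = R.op X (Ψ b) := by
      intro X hX b
      apply rir_ext_dot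
      intro a
      have hXs := inG_conjTranspose X hX
      have e1 : star (Φ a) ⬝ᵥ R'.op X b = star (R'.op Xᴴ (Φ a)) ⬝ᵥ b := by
        rw [op_adjoint R' Xᴴ hXs, conjTranspose_conjTranspose]
      have e2 : star a ⬝ᵥ R.op X (Ψ b) = star (R.op Xᴴ a) ⬝ᵥ Ψ b := by
        rw [op_adjoint R Xᴴ hXs, conjTranspose_conjTranspose]
      rw [← hΨ, e1, e2, ← hΨ, hΦe Xᴴ hXs]
    have hwt : Ψ (Φ v) ∈ R.wt lam := by
      rw [mem_wt]
      intro x
      rw [← hΨe _ (inG_Hc x), ← hΦe _ (inG_Hc x), (mem_wt R lam v).1 (rir_hw_wt h) x, map_smul,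
        map_smul]
    have hcy : Ψ (Φ v) ∈ R.cyc v := by
      rw [← orthC_orthC (R.cyc v)]
      intro b hb
      rw [← hΨ, hΦ0 b hb, star_zero, zero_dotProduct]
    obtain ⟨c, hc⟩ := rir_top_line R v lam h _ hcy hwt
    have hN := rir_normSq_pos h.ne
    have hN' := rir_normSq_pos h'.ne
    have hcval : c = (((∑ i, ‖v' i‖ ^ 2) / (∑ i, ‖v i‖ ^ 2) : ℝ) : ℂ) := by
      have e1 : star (Φ v) ⬝ᵥ Φ v = star v ⬝ᵥ Ψ (Φ v) := hΨ v (Φ v)
      rw [hc, dotProduct_smul, hΦv, rir_star_dot_self, rir_star_dot_self, smul_eq_mul] at e1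
      have hN0 : ((∑ i, ‖v i‖ ^ 2 : ℝ) : ℂ) ≠ 0 := by exact_mod_cast hN.ne'
      rw [Complex.ofReal_div, e1, mul_div_cancel_right₀ _ hN0]
    have hT : R.cyc v ≤ LinearMap.ker (Ψ ∘ₗ Φ - c • LinearMap.id) := by
      refine cyc_le R v _ ?_ ?_
      · intro X hX a ha
        rw [LinearMap.mem_ker, LinearMap.sub_apply, LinearMap.comp_apply, LinearMap.smul_apply,
          LinearMap.id_apply, sub_eq_zero] at ha ⊢
        rw [hΦe X hX, hΨe X hX, ha, map_smul]
      · rw [LinearMap.mem_ker, LinearMap.sub_apply, LinearMap.comp_apply, LinearMap.smul_apply,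
          LinearMap.id_apply, sub_eq_zero]
        exact hc
    refine ⟨(∑ i, ‖v' i‖ ^ 2) / (∑ i, ‖v i‖ ^ 2), div_pos hN' hN, fun a _ b hb => ?_⟩
    have hb' := hT hb
    rw [LinearMap.mem_ker, LinearMap.sub_apply, LinearMap.comp_apply, LinearMap.smul_apply,
      LinearMap.id_apply, sub_eq_zero] at hb'
    rw [hΨ, hb', dotProduct_smul, smul_eq_mul, hcval]

/-- (R3) uniqueness -/
theorem rep_unique (R : StarRep Ty.D n ι) (R' : StarRep Ty.D n ι') (v : ι → ℂ) (v' : ι' → ℂ)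
    (lam : Vec n) (h : IsHW R v lam) (h' : IsHW R' v' lam) :
    ∃ Φ : (ι → ℂ) →ₗ[ℂ] (ι' → ℂ), Φ v = v' ∧ (∀ X, Ty.D.InG X → ∀ a, Φ (R.op X a) = R'.op X (Φ a)) ∧
      (∀ a ∈ R.cyc v, Φ a = 0 → a = 0) ∧ (R.cyc v).map Φ = R'.cyc v' := by
  obtain ⟨Φ, h1, h2, _, h4, h5, _⟩ := rep_unique_perp R R' v v' lam h h'
  exact ⟨Φ, h1, h2, h4, h5⟩

end Claimed.Agent.R282
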