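import Claimed.Agent.R282.Rep.R.Api
import Claimed.Agent.R282.Defs.Dot

/-!
# Row 282, Rep, LEAF L-REP-KRON : tensor products (statements by helper103)

`(R₁.kron R₂).op X (tmul a b) = tmul (R₁.op X a) b + tmul a (R₂.op X b)`.  `tmul` is bilinear; `ι₁ × ι₂ → ℂ` is spanned by the `tmul` of basis vectors.
`rep_ch_kron`: `S_k = ⨁_χ S_k ⊓ wt χ` (commuting Hermitian operators `op (Hc x)`, see `R/Api.lean`); `tsub S₁ S₂ ⊓ wt χ = ⨁_(χ₁+χ₂=χ) tsub (S₁ ⊓ wt χ₁) (S₂ ⊓ wt χ₂)`, `finrank (tsub A B) = finrank A * finrank B`.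
-/

set_option autoImplicit false

namespace Claimed.Agent.R282

open Claims.C0456 Matrix

variable {n : ℕ}
variable {ι ι' ι₁ ι₂ ι₃ : Type} [Fintype ι] [DecidableEq ι] [Fintype ι'] [DecidableEq ι']
  [Fintype ι₁] [DecidableEq ι₁] [Fintype ι₂] [DecidableEq ι₂] [Fintype ι₃] [DecidableEq ι₃]

/-! ## elementary tensors -/

omit [Fintype ι] [DecidableEq ι] [Fintype ι'] [DecidableEq ι'] in
theorem rkr_tmul_add_left (a b : ι → ℂ) (c : ι' → ℂ) : tmul (a + b) c = tmul a c + tmul b c := by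
  funext p; simp [tmul, add_mul]

omit [Fintype ι] [DecidableEq ι] [Fintype ι'] [DecidableEq ι'] in
theorem rkr_tmul_add_right (a : ι → ℂ) (b c : ι' → ℂ) : tmul a (b + c) = tmul a b + tmul a c := by
  funext p; simp [tmul, mul_add]

omit [Fintype ι] [DecidableEq ι] [Fintype ι'] [DecidableEq ι'] in
theorem rkr_tmul_smul_left (r : ℂ) (a : ι → ℂ) (c : ι' → ℂ) : tmul (r • a) c = r • tmul a c := by
  funext p; simp [tmul, mul_assoc]

omit [Fintype ι] [DecidableEq ι] [Fintype ι'] [DecidableEq ι'] in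
theorem rkr_tmul_smul_right (r : ℂ) (a : ι → ℂ) (c : ι' → ℂ) : tmul a (r • c) = r • tmul a c := by
  funext p; simp [tmul, mul_left_comm]

omit [Fintype ι] [DecidableEq ι] [Fintype ι'] [DecidableEq ι'] in
theorem rkr_tmul_zero_left (c : ι' → ℂ) : tmul (0 : ι → ℂ) c = 0 := by
  funext p; simp [tmul]

omit [Fintype ι] [DecidableEq ι] [Fintype ι'] [DecidableEq ι'] in
theorem rkr_tmul_zero_right (a : ι → ℂ) : tmul a (0 : ι' → ℂ) = 0 := by
  funext p; simp [tmul]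

omit [Fintype ι] [DecidableEq ι] [Fintype ι'] [DecidableEq ι'] in
theorem rkr_tmul_sum_left {κ : Type} (s : Finset κ) (a : κ → ι → ℂ) (c : ι' → ℂ) :
    tmul (∑ k ∈ s, a k) c = ∑ k ∈ s, tmul (a k) c := by
  funext p; simp [tmul, Finset.sum_apply, Finset.sum_mul]

omit [Fintype ι] [DecidableEq ι] [Fintype ι'] [DecidableEq ι'] in
theorem rkr_tmul_sum_right {κ : Type} (s : Finset κ) (a : ι → ℂ) (c : κ → ι' → ℂ) :
    tmul a (∑ k ∈ s, c k) = ∑ k ∈ s, tmul a (c k) := by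
  funext p; simp [tmul, Finset.sum_apply, Finset.mul_sum]

omit [Fintype ι] [DecidableEq ι] [Fintype ι'] [DecidableEq ι'] in
theorem rkr_tmul_ne_zero (a : ι → ℂ) (c : ι' → ℂ) (ha : a ≠ 0) (hc : c ≠ 0) : tmul a c ≠ 0 := by
  obtain ⟨i, hi⟩ := Function.ne_iff.1 ha
  obtain ⟨j, hj⟩ := Function.ne_iff.1 hc
  exact Function.ne_iff.2 ⟨(i, j), mul_ne_zero hi hj⟩

omit [DecidableEq ι] [DecidableEq ι'] in
theorem rkr_kron_mulVec (A : Matrix ι ι ℂ) (B : Matrix ι' ι' ℂ) (a : ι → ℂ) (b : ι' → ℂ) :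
    kroneckerMap (· * ·) A B *ᵥ tmul a b = tmul (A *ᵥ a) (B *ᵥ b) := by
  funext ⟨i, j⟩
  simp only [Matrix.mulVec, dotProduct, tmul, kroneckerMap_apply, Fintype.sum_prod_type,
    Finset.sum_mul_sum]
  refine Finset.sum_congr rfl fun x _ => Finset.sum_congr rfl fun y _ => ?_
  ring

/-- the Leibniz rule -/
theorem kron_op_tmul {ty : Ty} (R : StarRep ty n ι) (R' : StarRep ty n ι') (X : Matrix (Ix n) (Ix n) ℂ)
    (a : ι → ℂ) (a' : ι' → ℂ) :
    (R.kron R').op X (tmul a a') = tmul (R.op X a) a' + tmul a (R'.op X a') := by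
  show (kroneckerMap (· * ·) (R.ρ X) (1 : Matrix ι' ι' ℂ) +
        kroneckerMap (· * ·) (1 : Matrix ι ι ℂ) (R'.ρ X)) *ᵥ tmul a a' = _
  rw [Matrix.add_mulVec, rkr_kron_mulVec, rkr_kron_mulVec, Matrix.one_mulVec, Matrix.one_mulVec]
  rfl

omit [DecidableEq ι] [DecidableEq ι'] in
theorem rkr_dot_tmul (c d : ι → ℂ) (c' d' : ι' → ℂ) :
    star (tmul c c') ⬝ᵥ tmul d d' = (star c ⬝ᵥ d) * (star c' ⬝ᵥ d') := by
  simp only [dotProduct, tmul, Fintype.sum_prod_type, Finset.sum_mul_sum, Pi.star_apply, star_mul']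
  refine Finset.sum_congr rfl fun x _ => Finset.sum_congr rfl fun y _ => ?_
  ring

omit [Fintype ι] [DecidableEq ι] [Fintype ι'] [DecidableEq ι'] in
theorem rkr_tmul_mem (S₁ : Submodule ℂ (ι → ℂ)) (S₂ : Submodule ℂ (ι' → ℂ)) (a : ι → ℂ)
    (ha : a ∈ S₁) (b : ι' → ℂ) (hb : b ∈ S₂) : tmul a b ∈ tsub S₁ S₂ :=
  Submodule.subset_span ⟨a, ha, b, hb, rfl⟩

omit [Fintype ι] [DecidableEq ι] [Fintype ι'] [DecidableEq ι'] in
theorem rkr_tsub_le (S₁ : Submodule ℂ (ι → ℂ)) (S₂ : Submodule ℂ (ι' → ℂ))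
    (W : Submodule ℂ (ι × ι' → ℂ)) (h : ∀ a ∈ S₁, ∀ b ∈ S₂, tmul a b ∈ W) : tsub S₁ S₂ ≤ W := by
  refine Submodule.span_le.2 ?_
  rintro _ ⟨a, ha, b, hb, rfl⟩
  exact h a ha b hb

omit [Fintype ι] [DecidableEq ι] [Fintype ι'] [DecidableEq ι'] in
theorem rkr_tsub_mono (S₁ S₁' : Submodule ℂ (ι → ℂ)) (S₂ S₂' : Submodule ℂ (ι' → ℂ))
    (h₁ : S₁ ≤ S₁') (h₂ : S₂ ≤ S₂') : tsub S₁ S₂ ≤ tsub S₁' S₂' :=
  rkr_tsub_le _ _ _ fun a ha b hb => rkr_tmul_mem _ _ a (h₁ ha) b (h₂ hb)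

/-- (R1') products of highest weight vectors -/
theorem isHW_kron (R : StarRep Ty.D n ι) (R' : StarRep Ty.D n ι') (v : ι → ℂ) (v' : ι' → ℂ)
    (lam lam' : Vec n) (h : IsHW R v lam) (h' : IsHW R' v' lam') :
    IsHW (R.kron R') (tmul v v') (lam + lam') := by
  refine ⟨rkr_tmul_ne_zero _ _ h.ne h'.ne, ?_, ?_⟩
  · intro x
    have := kron_op_tmul R R' (Hc x) v v'
    rw [op_apply, op_apply, op_apply, h.wt x, h'.wt x, rkr_tmul_smul_left, rkr_tmul_smul_right,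
      ← add_smul] at this
    rw [this, dot_add_left]
    push_cast
    rfl
  · intro β E hβ hE
    have := kron_op_tmul R R' E v v'
    rw [op_apply, op_apply, op_apply, h.top β E hβ hE, h'.top β E hβ hE, rkr_tmul_zero_left,
      rkr_tmul_zero_right, add_zero] at this
    exact this

theorem rep_inv_tsub (R₁ : StarRep Ty.D n ι₁) (R₂ : StarRep Ty.D n ι₂) (S₁ : Submodule ℂ (ι₁ → ℂ))
    (S₂ : Submodule ℂ (ι₂ → ℂ)) (h₁ : R₁.Inv S₁) (h₂ : R₂.Inv S₂) : (R₁.kron R₂).Inv (tsub S₁ S₂) := by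
  intro X hX x hx
  have : tsub S₁ S₂ ≤ (tsub S₁ S₂).comap ((R₁.kron R₂).op X) := by
    refine rkr_tsub_le _ _ _ fun a ha b hb => ?_
    show (R₁.kron R₂).op X (tmul a b) ∈ tsub S₁ S₂
    rw [kron_op_tmul]
    exact Submodule.add_mem _ (rkr_tmul_mem _ _ _ (h₁ X hX a ha) _ hb)
      (rkr_tmul_mem _ _ _ ha _ (h₂ X hX b hb))
  exact this hx

/-- the weight of an elementary tensor -/
theorem rkr_tmul_wt {ty : Ty} (R₁ : StarRep ty n ι₁) (R₂ : StarRep ty n ι₂) (χ₁ χ₂ : Vec n) (a : ι₁ → ℂ)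
    (ha : a ∈ R₁.wt χ₁) (b : ι₂ → ℂ) (hb : b ∈ R₂.wt χ₂) : tmul a b ∈ (R₁.kron R₂).wt (χ₁ + χ₂) := by
  rw [mem_wt] at ha hb ⊢
  intro x
  rw [kron_op_tmul, ha x, hb x, rkr_tmul_smul_left, rkr_tmul_smul_right, ← add_smul, dot_add_left]
  push_cast
  rfl

/-! ## the dimension of a tensor product of subspaces -/

omit [Fintype ι] [DecidableEq ι] [Fintype ι'] [DecidableEq ι'] in
theorem rkr_linIndep {p q : Type} [Fintype p] [Fintype q] (a : p → ι → ℂ) (b : q → ι' → ℂ)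
    (ha : LinearIndependent ℂ a) (hb : LinearIndependent ℂ b) :
    LinearIndependent ℂ (fun k : p × q => tmul (a k.1) (b k.2)) := by
  rw [Fintype.linearIndependent_iff] at ha hb ⊢
  intro g hg
  have h1 : ∀ y : ι', ∀ i : p, ∑ j, g (i, j) * b j y = 0 := by
    intro y
    refine ha (fun i => ∑ j, g (i, j) * b j y) ?_
    funext x
    have := congrFun hg (x, y)
    simp only [Finset.sum_apply, Pi.smul_apply, smul_eq_mul, tmul, Fintype.sum_prod_type,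
      Pi.zero_apply] at this ⊢
    rw [← this]
    refine Finset.sum_congr rfl fun i _ => ?_
    rw [Finset.sum_mul]
    refine Finset.sum_congr rfl fun j _ => ?_
    ring
  rintro ⟨i, j⟩
  refine hb (fun j => g (i, j)) ?_ j
  funext y
  have := h1 y i
  simpa [Finset.sum_apply] using this

omit [DecidableEq ι] [DecidableEq ι'] in
theorem rkr_finrank_tsub (A : Submodule ℂ (ι → ℂ)) (B : Submodule ℂ (ι' → ℂ)) :
    Module.finrank ℂ (tsub A B) = Module.finrank ℂ A * Module.finrank ℂ B := by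
  let bA := Module.finBasis ℂ A
  let bB := Module.finBasis ℂ B
  have hA : LinearIndependent ℂ (fun i => (bA i : ι → ℂ)) :=
    bA.linearIndependent.map' A.subtype (Submodule.ker_subtype A)
  have hB : LinearIndependent ℂ (fun i => (bB i : ι' → ℂ)) :=
    bB.linearIndependent.map' B.subtype (Submodule.ker_subtype B)
  have hli := rkr_linIndep _ _ hA hB
  have hspan : Submodule.span ℂ (Set.range fun k : Fin (Module.finrank ℂ A) × Fin (Module.finrank ℂ B) =>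
      tmul (bA k.1 : ι → ℂ) (bB k.2 : ι' → ℂ)) = tsub A B := by
    apply le_antisymm
    · refine Submodule.span_le.2 ?_
      rintro _ ⟨k, rfl⟩
      exact rkr_tmul_mem _ _ _ (bA k.1).2 _ (bB k.2).2
    · refine rkr_tsub_le _ _ _ fun a ha b hb => ?_
      have e1 : a = ∑ i, bA.repr ⟨a, ha⟩ i • (bA i : ι → ℂ) := by
        have := congrArg A.subtype (bA.sum_repr ⟨a, ha⟩)
        rw [map_sum] at this
        simp only [map_smul] at this
        exact this.symm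
      have e2 : b = ∑ i, bB.repr ⟨b, hb⟩ i • (bB i : ι' → ℂ) := by
        have := congrArg B.subtype (bB.sum_repr ⟨b, hb⟩)
        rw [map_sum] at this
        simp only [map_smul] at this
        exact this.symm
      rw [e1, e2, rkr_tmul_sum_left]
      refine Submodule.sum_mem _ fun i _ => ?_
      rw [rkr_tmul_sum_right]
      refine Submodule.sum_mem _ fun j _ => ?_
      rw [rkr_tmul_smul_left, rkr_tmul_smul_right]
      exact Submodule.smul_mem _ _ (Submodule.smul_mem _ _ (Submodule.subset_span ⟨(i, j), rfl⟩))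
  rw [← hspan, finrank_span_eq_card hli]
  simp

/-! ## orthogonality -/

omit [DecidableEq ι] [DecidableEq ι'] in
theorem rkr_tsub_orth (A A' : Submodule ℂ (ι → ℂ)) (B B' : Submodule ℂ (ι' → ℂ))
    (h : A ≤ orthC A') : tsub A B ≤ orthC (tsub A' B') := by
  refine rkr_tsub_le _ _ _ fun a ha b hb => ?_
  intro y hy
  induction hy using Submodule.span_induction with
  | mem y hy =>
    obtain ⟨a', ha', b', hb', rfl⟩ := hy
    rw [rkr_dot_tmul, h ha a' ha', zero_mul]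
  | zero => simp
  | add x y _ _ hx hy => rw [star_add, add_dotProduct, hx, hy, add_zero]
  | smul c x _ hx => rw [star_smul, smul_dotProduct, hx, smul_zero]

omit [DecidableEq ι] in
theorem rkr_finrank_iSup_orth {κ : Type} [DecidableEq κ] (s : Finset κ) (U : κ → Submodule ℂ (ι → ℂ))
    (h : ∀ i ∈ s, ∀ j ∈ s, i ≠ j → U i ≤ orthC (U j)) :
    Module.finrank ℂ (⨆ i ∈ s, U i : Submodule ℂ (ι → ℂ)) = ∑ i ∈ s, Module.finrank ℂ (U i) := by
  classical
  induction s using Finset.induction_on with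
  | empty => simp
  | insert i₀ s hi ih =>
    rw [Finset.iSup_insert, Finset.sum_insert hi, ← ih (fun i hi' j hj' hij =>
      h i (Finset.mem_insert_of_mem hi') j (Finset.mem_insert_of_mem hj') hij)]
    have hle : (⨆ i ∈ s, U i) ≤ orthC (U i₀) := by
      refine iSup₂_le fun i hi' => ?_
      refine h i (Finset.mem_insert_of_mem hi') i₀ (Finset.mem_insert_self _ _) ?_
      rintro rfl
      exact hi hi'
    have hinf : U i₀ ⊓ (⨆ i ∈ s, U i) = ⊥ := by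
      refine le_bot_iff.1 ?_
      calc U i₀ ⊓ (⨆ i ∈ s, U i) ≤ U i₀ ⊓ orthC (U i₀) := inf_le_inf_left _ hle
        _ = ⊥ := orthC_inf _
    have := Submodule.finrank_sup_add_finrank_inf_eq (U i₀) (⨆ i ∈ s, U i)
    rw [hinf, finrank_bot, add_zero] at this
    exact this

/-! ## extraction of a weight component -/

theorem rkr_extract {V X κ : Type} [AddCommGroup V] [Module ℂ V] [DecidableEq X]
    (Wt : X → Submodule ℂ V) (hind : iSupIndep Wt) (s : Finset κ) (U : κ → Submodule ℂ V)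
    (w : κ → X) (hU : ∀ k ∈ s, U k ≤ Wt (w k)) (χ : X) :
    (⨆ k ∈ s, U k) ⊓ Wt χ ≤ ⨆ k ∈ s.filter (fun k => w k = χ), U k := by
  rintro x ⟨hx1, hx2⟩
  obtain ⟨μ, hμ⟩ := (Submodule.mem_iSup_finset_iff_exists_sum U x).1 hx1
  rw [← Finset.sum_filter_add_sum_filter_not s (fun k => w k = χ)] at hμ
  have hy : ∑ k ∈ s.filter (fun k => w k = χ), (μ k : V) ∈ ⨆ k ∈ s.filter (fun k => w k = χ), U k :=
    Submodule.sum_mem _ fun k hk => Submodule.mem_iSup_of_mem k (Submodule.mem_iSup_of_mem hk (μ k).2)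
  have hy' : ∑ k ∈ s.filter (fun k => w k = χ), (μ k : V) ∈ Wt χ :=
    Submodule.sum_mem _ fun k hk => by
      have h1 := Finset.mem_filter.1 hk
      have := hU k h1.1 (μ k).2
      rwa [h1.2] at this
  have hz : ∑ k ∈ s.filter (fun k => ¬ w k = χ), (μ k : V) ∈ ⨆ j, ⨆ (_ : j ≠ χ), Wt j :=
    Submodule.sum_mem _ fun k hk => by
      have h1 := Finset.mem_filter.1 hk
      exact Submodule.mem_iSup_of_mem (w k) (Submodule.mem_iSup_of_mem h1.2 (hU k h1.1 (μ k).2))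
  have hz' : ∑ k ∈ s.filter (fun k => ¬ w k = χ), (μ k : V) ∈ Wt χ := by
    have : ∑ k ∈ s.filter (fun k => ¬ w k = χ), (μ k : V) =
        x - ∑ k ∈ s.filter (fun k => w k = χ), (μ k : V) := by
      rw [← hμ]; abel
    rw [this]
    exact Submodule.sub_mem _ hx2 hy'
  have hz0 := Submodule.disjoint_def.1 (hind χ) _ hz' hz
  rw [hz0, add_zero] at hμ
  rw [← hμ]
  exact hy

theorem rkr_mult_ne_zero {ty : Ty} (R : StarRep ty n ι) (S : Submodule ℂ (ι → ℂ)) (χ : Vec n) (a : ι → ℂ)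
    (ha : a ∈ S ⊓ R.wt χ) (h0 : a ≠ 0) : R.mult S χ ≠ 0 := by
  intro h
  have : (S ⊓ R.wt χ : Submodule ℂ (ι → ℂ)) = ⊥ := Submodule.finrank_eq_zero.1 h
  rw [this] at ha
  exact h0 ((Submodule.mem_bot ℂ).1 ha)

/-- (R5) the character of a tensor product is the convolution -/
theorem rep_ch_kron (R₁ : StarRep Ty.D n ι₁) (R₂ : StarRep Ty.D n ι₂) (S₁ : Submodule ℂ (ι₁ → ℂ))
    (S₂ : Submodule ℂ (ι₂ → ℂ)) (h₁ : R₁.Inv S₁) (h₂ : R₂.Inv S₂)
    (F : Finset (Fin n → ℤ)) (hF : ∀ χ : Vec n, R₁.mult S₁ χ ≠ 0 → ∃ γ ∈ F, χ = halfV γ) (γ : Fin n → ℤ) :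
    (R₁.kron R₂).chZ (tsub S₁ S₂) γ = ∑ δ ∈ F, R₁.chZ S₁ δ * R₂.chZ S₂ (γ - δ) := by
  classical
  let F₂ : Finset (Vec n) := (wt_finite R₂).toFinset
  let U : (Fin n → ℤ) × Vec n → Submodule ℂ (ι₁ × ι₂ → ℂ) :=
    fun p => tsub (S₁ ⊓ R₁.wt (halfV p.1)) (S₂ ⊓ R₂.wt p.2)
  have hUwt : ∀ p, U p ≤ (R₁.kron R₂).wt (halfV p.1 + p.2) := fun p =>
    rkr_tsub_le _ _ _ fun a ha b hb => rkr_tmul_wt R₁ R₂ _ _ a ha.2 b hb.2
  have hUW : ∀ p, U p ≤ tsub S₁ S₂ := fun p => rkr_tsub_mono _ _ _ _ inf_le_left inf_le_left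
  -- Step A
  have hA : tsub S₁ S₂ ≤ ⨆ p ∈ F ×ˢ F₂, U p := by
    refine rkr_tsub_le _ _ _ fun a ha b hb => ?_
    obtain ⟨G₁, c₁, hc₁, rfl⟩ := wt_components R₁ S₁ h₁ a ha
    obtain ⟨G₂, c₂, hc₂, rfl⟩ := wt_components R₂ S₂ h₂ b hb
    rw [rkr_tmul_sum_left]
    refine Submodule.sum_mem _ fun χ hχ => ?_
    rw [rkr_tmul_sum_right]
    refine Submodule.sum_mem _ fun χ' hχ' => ?_
    by_cases e1 : c₁ χ = 0
    · rw [e1, rkr_tmul_zero_left]; exact Submodule.zero_mem _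
    by_cases e2 : c₂ χ' = 0
    · rw [e2, rkr_tmul_zero_right]; exact Submodule.zero_mem _
    obtain ⟨δ, hδ, rfl⟩ := hF χ (rkr_mult_ne_zero R₁ S₁ χ _ (hc₁ χ hχ) e1)
    have hχ'2 : χ' ∈ F₂ := by
      refine (Set.Finite.mem_toFinset _).2 ?_
      intro hbot
      have := (hc₂ χ' hχ').2
      rw [hbot] at this
      exact e2 ((Submodule.mem_bot ℂ).1 this)
    refine Submodule.mem_iSup_of_mem (δ, χ') (Submodule.mem_iSup_of_mem
      (Finset.mem_product.2 ⟨hδ, hχ'2⟩) ?_)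
    exact rkr_tmul_mem _ _ _ (hc₁ _ hχ) _ (hc₂ _ hχ')
  -- Steps B, C
  have hBC : (tsub S₁ S₂ ⊓ (R₁.kron R₂).wt (halfV γ) : Submodule ℂ (ι₁ × ι₂ → ℂ)) =
      ⨆ δ ∈ F, U (δ, halfV (γ - δ)) := by
    apply le_antisymm
    · calc (tsub S₁ S₂ ⊓ (R₁.kron R₂).wt (halfV γ) : Submodule ℂ (ι₁ × ι₂ → ℂ))
          ≤ (⨆ p ∈ F ×ˢ F₂, U p) ⊓ (R₁.kron R₂).wt (halfV γ) := inf_le_inf_right _ hA
        _ ≤ ⨆ p ∈ (F ×ˢ F₂).filter (fun p => halfV p.1 + p.2 = halfV γ), U p :=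
            rkr_extract _ (wt_indep (R₁.kron R₂)) _ U (fun p => halfV p.1 + p.2)
              (fun p _ => hUwt p) (halfV γ)
        _ ≤ ⨆ δ ∈ F, U (δ, halfV (γ - δ)) := by
            refine iSup₂_le fun p hp => ?_
            obtain ⟨hp1, hp2⟩ := Finset.mem_filter.1 hp
            have e : p = (p.1, halfV (γ - p.1)) := by
              refine Prod.ext rfl ?_
              show p.2 = halfV (γ - p.1)
              rw [halfV_sub, ← hp2]; abel
            rw [e]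
            exact le_iSup₂_of_le p.1 (Finset.mem_product.1 hp1).1 le_rfl
    · refine iSup₂_le fun δ _ => le_inf (hUW _) ?_
      have := hUwt (δ, halfV (γ - δ))
      have e : halfV δ + halfV (γ - δ) = halfV γ := by rw [halfV_sub]; abel
      rw [← e]
      exact this
  have hfin : (R₁.kron R₂).mult (tsub S₁ S₂) (halfV γ) =
      ∑ δ ∈ F, R₁.mult S₁ (halfV δ) * R₂.mult S₂ (halfV (γ - δ)) := by
    show Module.finrank ℂ (tsub S₁ S₂ ⊓ (R₁.kron R₂).wt (halfV γ) : Submodule ℂ (ι₁ × ι₂ → ℂ)) = _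
    rw [hBC, rkr_finrank_iSup_orth]
    · refine Finset.sum_congr rfl fun δ _ => ?_
      exact rkr_finrank_tsub _ _
    · intro δ _ δ' _ hne
      refine rkr_tsub_orth _ _ _ _ ?_
      intro a ha a' ha'
      exact wt_orth R₁ _ _ (fun e => hne (halfV_injective e).symm) a' a ha'.2 ha.2
  show (((R₁.kron R₂).mult (tsub S₁ S₂) (halfV γ) : ℕ) : ℤ) =
    ∑ δ ∈ F, ((R₁.mult S₁ (halfV δ) : ℕ) : ℤ) * ((R₂.mult S₂ (halfV (γ - δ)) : ℕ) : ℤ)
  rw [hfin]
  push_cast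
  rfl

end Claimed.Agent.R282
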