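import Claimed.Agent.R282.Rep.R.Split
import Claimed.Agent.R282.Rep.R.Kron

/-!
# Row 282, Rep, LEAF L-REP-OCCIFF (statement by helper103)

(⇐) a primitive vector `p ≠ 0` of weight `X/2` in `tsub (cyc v₁) (cyc v₂)`: `R₃ = R₁.kron R₂` (reindexed to `Fin m`; also `R₁`, `R₂` have to be reindexed), `T a b = tmul a b`, `v₃ = p`, `c = p`: `p` is a sum of `tmul a b`, so some `⟨p, tmul a b⟩ ≠ 0`.
(⇒) given `(R₁', R₂', R₃', T, ..)` transport by `rep_unique` to the models `R₁, R₂`; `T` induces an equivariant linear map `τ : tsub (cyc v₁) (cyc v₂) → cyc v₃'` (compose with the orthogonal projection), `τ ≠ 0`, hence onto (`rep_irred`);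
    `τ^*` (adjoint, equivariant because of `*`) is injective and `τ^* v₃'` is primitive of weight `X/2`.
-/

set_option autoImplicit false

namespace Claimed.Agent.R282

open Claims.C0456 Matrix

variable {n : ℕ}
variable {ι ι' ι₁ ι₂ ι₃ : Type} [Fintype ι] [DecidableEq ι] [Fintype ι'] [DecidableEq ι']
  [Fintype ι₁] [DecidableEq ι₁] [Fintype ι₂] [DecidableEq ι₂] [Fintype ι₃] [DecidableEq ι₃]

/-! ## elementary tensors -/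

theorem roi_kron_op (R₁ : StarRep Ty.D n ι₁) (R₂ : StarRep Ty.D n ι₂) (X : Matrix (Ix n) (Ix n) ℂ)
    (a : ι₁ → ℂ) (b : ι₂ → ℂ) :
    (R₁.kron R₂).op X (tmul a b) = tmul (R₁.op X a) b + tmul a (R₂.op X b) := by
  rw [op_apply, op_apply, op_apply]
  show (kroneckerMap (· * ·) (R₁.ρ X) (1 : Matrix ι₂ ι₂ ℂ) +
        kroneckerMap (· * ·) (1 : Matrix ι₁ ι₁ ℂ) (R₂.ρ X)) *ᵥ tmul a b = _
  rw [add_mulVec]
  congr 1
  · funext ⟨i, j⟩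
    simp only [mulVec, dotProduct, tmul, kroneckerMap_apply, Fintype.sum_prod_type, one_apply]
    rw [Finset.sum_mul]
    refine Finset.sum_congr rfl fun i' _ => ?_
    rw [Finset.sum_eq_single j]
    · simp; ring
    · intro j' _ hj'
      simp [Ne.symm hj']
    · simp
  · funext ⟨i, j⟩
    simp only [mulVec, dotProduct, tmul, kroneckerMap_apply, Fintype.sum_prod_type, one_apply]
    rw [Finset.sum_eq_single i]
    · simp only [if_true, one_mul]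
      rw [Finset.mul_sum]
      refine Finset.sum_congr rfl fun j' _ => ?_
      ring
    · intro i' _ hi'
      simp [Ne.symm hi']
    · simp

/-- the linear map on `ι₁ × ι₂ → ℂ` induced by a bilinear map, as a matrix -/
noncomputable def roiMat (B : (ι₁ → ℂ) →ₗ[ℂ] (ι₂ → ℂ) →ₗ[ℂ] (ι₃ → ℂ)) : Matrix ι₃ (ι₁ × ι₂) ℂ :=
  fun k p => B (Pi.single p.1 1) (Pi.single p.2 1) k

theorem roi_eqns_cite : True := by
  have := @roiMat.eq_1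
  trivial

omit [Fintype ι₃] [DecidableEq ι₃] in
theorem roi_mat_tmul (B : (ι₁ → ℂ) →ₗ[ℂ] (ι₂ → ℂ) →ₗ[ℂ] (ι₃ → ℂ)) (a : ι₁ → ℂ) (b : ι₂ → ℂ) :
    roiMat B *ᵥ tmul a b = B a b := by
  have ha : a = ∑ i, a i • (Pi.single i 1 : ι₁ → ℂ) := by
    funext k; simp [Finset.sum_apply, Pi.single_apply]
  have hb : b = ∑ j, b j • (Pi.single j 1 : ι₂ → ℂ) := by
    funext k; simp [Finset.sum_apply, Pi.single_apply]
  conv_rhs => rw [ha, hb]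
  funext k
  simp only [mulVec, dotProduct, tmul, roiMat, Fintype.sum_prod_type, map_sum, map_smul,
    LinearMap.sum_apply, LinearMap.smul_apply, Finset.sum_apply, Pi.smul_apply, smul_eq_mul,
    Finset.mul_sum]
  rw [Finset.sum_comm]
  refine Finset.sum_congr rfl fun j _ => ?_
  refine Finset.sum_congr rfl fun i _ => ?_
  ring

theorem roi_tmul_span (z : ι₁ × ι₂ → ℂ) :
    z = ∑ p : ι₁ × ι₂, z p • tmul (Pi.single p.1 1 : ι₁ → ℂ) (Pi.single p.2 1 : ι₂ → ℂ) := by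
  funext ⟨i, j⟩
  simp only [Finset.sum_apply, Pi.smul_apply, tmul, smul_eq_mul, Pi.single_apply]
  rw [Finset.sum_eq_single (i, j)]
  · simp
  · rintro ⟨i', j'⟩ _ hne
    by_cases h1 : i = i'
    · by_cases h2 : j = j'
      · exact absurd (by rw [h1, h2]) hne
      · simp [h2]
    · simp [h1]
  · simp

/-! ## adjoints, equivariant maps -/

omit [DecidableEq ι] [DecidableEq ι'] in
theorem roi_adj (A : Matrix ι' ι ℂ) (z : ι → ℂ) (w : ι' → ℂ) :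
    star (A *ᵥ z) ⬝ᵥ w = star z ⬝ᵥ (Aᴴ *ᵥ w) := by
  rw [star_mulVec, dotProduct_mulVec]

omit [DecidableEq ι] in
theorem roi_ext_star (u u' : ι → ℂ) (h : ∀ z : ι → ℂ, star z ⬝ᵥ u = star z ⬝ᵥ u') : u = u' := by
  apply _root_.dotProduct_eq
  intro z
  have := h (star z)
  rw [star_star] at this
  rw [dotProduct_comm, this, dotProduct_comm]

theorem roi_adj_equiv (R : StarRep Ty.D n ι) (R' : StarRep Ty.D n ι') (A : Matrix ι' ι ℂ)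
    (hA : ∀ X, Ty.D.InG X → ∀ z, A *ᵥ (R.op X z) = R'.op X (A *ᵥ z))
    (X : Matrix (Ix n) (Ix n) ℂ) (hX : Ty.D.InG X) (w : ι' → ℂ) :
    Aᴴ *ᵥ (R'.op X w) = R.op X (Aᴴ *ᵥ w) := by
  apply roi_ext_star
  intro z
  have hX' := inG_conjTranspose X hX
  have e1 := op_adjoint R' Xᴴ hX' (A *ᵥ z) w
  have e2 := op_adjoint R Xᴴ hX' z (Aᴴ *ᵥ w)
  rw [conjTranspose_conjTranspose] at e1 e2
  rw [← roi_adj, ← e1, ← hA _ hX', roi_adj, e2]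

theorem roi_equiv_wt (R : StarRep Ty.D n ι) (R' : StarRep Ty.D n ι')
    (Ψ : (ι → ℂ) →ₗ[ℂ] (ι' → ℂ)) (hΨ : ∀ X, Ty.D.InG X → ∀ a, Ψ (R.op X a) = R'.op X (Ψ a))
    (χ : Vec n) (a : ι → ℂ) (ha : a ∈ R.wt χ) : Ψ a ∈ R'.wt χ := by
  rw [mem_wt] at ha ⊢
  intro x
  rw [← hΨ _ (inG_Hc x), ha x, map_smul]

theorem roi_equiv_prim (R : StarRep Ty.D n ι) (R' : StarRep Ty.D n ι')
    (Ψ : (ι → ℂ) →ₗ[ℂ] (ι' → ℂ)) (hΨ : ∀ X, Ty.D.InG X → ∀ a, Ψ (R.op X a) = R'.op X (Ψ a))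
    (a : ι → ℂ) (ha : a ∈ R.prim) : Ψ a ∈ R'.prim := by
  rw [mem_prim] at ha ⊢
  intro β hβ
  rw [← hΨ _ (isRootVec_rootVec β).1, ha β hβ, map_zero]

theorem roi_fwd (L M X : Fin n → ℤ) (R₁ : StarRep Ty.D n ι₁) (R₂ : StarRep Ty.D n ι₂)
    (v₁ : ι₁ → ℂ) (v₂ : ι₂ → ℂ) (h₁ : IsHW R₁ v₁ (halfV L)) (h₂ : IsHW R₂ v₂ (halfV M))
    (h : Occ L M X) :
    (R₁.kron R₂).hwMult (tsub (R₁.cyc v₁) (R₂.cyc v₂)) (halfV X) ≠ 0 := by
  obtain ⟨m₁, m₂, m₃, R₁', R₂', R₃', T, v₁', v₂', v₃', hT, h₁', h₂', h₃', a, ha, b, hb, c, hc,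
    hne⟩ := h
  obtain ⟨Φ₁, -, hΦ₁, -, hmap₁⟩ := rep_unique R₁ R₁' v₁ v₁' _ h₁ h₁'
  obtain ⟨Φ₂, -, hΦ₂, -, hmap₂⟩ := rep_unique R₂ R₂' v₂ v₂' _ h₂ h₂'
  obtain ⟨A, hA⟩ : ∃ A : Matrix (Fin m₃) (ι₁ × ι₂) ℂ, ∀ x y, A *ᵥ tmul x y = T (Φ₁ x) (Φ₂ y) :=
    ⟨roiMat (T.compl₁₂ Φ₁ Φ₂), fun x y => roi_mat_tmul _ x y⟩
  have hAeq : ∀ Y, Ty.D.InG Y → ∀ z, A *ᵥ ((R₁.kron R₂).op Y z) = R₃'.op Y (A *ᵥ z) := by
    intro Y hY z
    have key : ∀ x y, A *ᵥ ((R₁.kron R₂).op Y (tmul x y)) = R₃'.op Y (A *ᵥ tmul x y) := by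
      intro x y
      rw [roi_kron_op, mulVec_add, hA, hA, hA, hΦ₁ Y hY, hΦ₂ Y hY, op_apply R₃', hT Y hY]
      rfl
    rw [roi_tmul_span z]
    simp only [map_sum, map_smul, mulVec_sum, mulVec_smul, key]
  have hS := rep_inv_tsub R₁ R₂ _ _ (cyc_inv R₁ v₁) (cyc_inv R₂ v₂)
  obtain ⟨P, hP1, hP2, -, hP4, hP5⟩ := exists_proj (R₁.kron R₂) _ hS
  obtain ⟨Θ, hΘ⟩ : ∃ Θ : (Fin m₃ → ℂ) →ₗ[ℂ] (ι₁ × ι₂ → ℂ), ∀ w, Θ w = P (Aᴴ *ᵥ w) :=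
    ⟨P ∘ₗ Matrix.toLin' Aᴴ, fun w => rfl⟩
  have hΘeq : ∀ Y, Ty.D.InG Y → ∀ w, Θ (R₃'.op Y w) = (R₁.kron R₂).op Y (Θ w) := by
    intro Y hY w
    rw [hΘ, hΘ, roi_adj_equiv (R₁.kron R₂) R₃' A hAeq Y hY, hP4 Y hY]
  obtain ⟨h30, h3w, h3p⟩ := (isHW_iff R₃' _ _).mp h₃'
  have hp0 : Θ v₃' ≠ 0 := by
    intro h0
    have hker : R₃'.cyc v₃' ≤ LinearMap.ker Θ := by
      apply cyc_le
      · intro Y hY w hw
        rw [LinearMap.mem_ker] at hw ⊢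
        rw [hΘeq Y hY, hw, map_zero]
      · exact h0
    have hc0 : Θ c = 0 := hker hc
    rw [← hmap₁] at ha
    rw [← hmap₂] at hb
    obtain ⟨x, hx, rfl⟩ := ha
    obtain ⟨y, hy, rfl⟩ := hb
    have hs : tmul x y ∈ tsub (R₁.cyc v₁) (R₂.cyc v₂) :=
      Submodule.subset_span ⟨x, hx, y, hy, rfl⟩
    apply hne
    have e : star (A *ᵥ tmul x y) ⬝ᵥ c = 0 := by
      rw [roi_adj]
      conv_lhs => rw [← hP2 _ hs]
      rw [hP5, ← hΘ, hc0, dotProduct_zero]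
    rw [← hA, star_dotProduct, e, star_zero]
  intro hz
  unfold StarRep.hwMult at hz
  rw [Submodule.finrank_eq_zero] at hz
  have hmem : Θ v₃' ∈ (tsub (R₁.cyc v₁) (R₂.cyc v₂) ⊓ (R₁.kron R₂).wt (halfV X) ⊓
      (R₁.kron R₂).prim : Submodule ℂ (ι₁ × ι₂ → ℂ)) :=
    ⟨⟨by rw [hΘ]; exact hP1 _, roi_equiv_wt R₃' _ Θ hΘeq _ _ h3w⟩,
      roi_equiv_prim R₃' _ Θ hΘeq _ h3p⟩
  rw [hz] at hmem
  exact hp0 ((Submodule.mem_bot ℂ).mp hmem)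

/-- the tensor product map between reindexed spaces -/
def roiT {κ₁ κ₂ κ₃ : Type} (e₁ : ι₁ ≃ κ₁) (e₂ : ι₂ ≃ κ₂) (e₃ : ι₁ × ι₂ ≃ κ₃) :
    (κ₁ → ℂ) →ₗ[ℂ] (κ₂ → ℂ) →ₗ[ℂ] (κ₃ → ℂ) :=
  LinearMap.mk₂ ℂ (fun a b => tmul (a ∘ e₁) (b ∘ e₂) ∘ e₃.symm)
    (by intro a a' b; funext k; simp [tmul, add_mul])
    (by intro c a b; funext k; simp [tmul, mul_assoc])
    (by intro a b b'; funext k; simp [tmul, mul_add])
    (by intro c a b; funext k; simp [tmul, mul_left_comm])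

theorem roi_eqns_cite2 : True := by
  have := @roiT.eq_1
  trivial

omit [Fintype ι₁] [DecidableEq ι₁] [Fintype ι₂] [DecidableEq ι₂] in
theorem roi_T_apply {κ₁ κ₂ κ₃ : Type} (e₁ : ι₁ ≃ κ₁) (e₂ : ι₂ ≃ κ₂) (e₃ : ι₁ × ι₂ ≃ κ₃)
    (a : κ₁ → ℂ) (b : κ₂ → ℂ) : roiT e₁ e₂ e₃ a b = tmul (a ∘ e₁) (b ∘ e₂) ∘ e₃.symm := rfl

theorem roi_reindex_op (R : StarRep Ty.D n ι) (e : ι ≃ ι') (X : Matrix (Ix n) (Ix n) ℂ)
    (a : ι' → ℂ) : ((R.reindex e).op X a) ∘ e = R.op X (a ∘ e) := by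
  have h := reindex_op R e X (a ∘ e)
  have e1 : (a ∘ e) ∘ e.symm = a := by funext k; simp
  rw [e1] at h
  rw [h]
  funext k; simp

theorem roi_bwd (L M X : Fin n → ℤ) (R₁ : StarRep Ty.D n ι₁) (R₂ : StarRep Ty.D n ι₂)
    (v₁ : ι₁ → ℂ) (v₂ : ι₂ → ℂ) (h₁ : IsHW R₁ v₁ (halfV L)) (h₂ : IsHW R₂ v₂ (halfV M))
    (h : (R₁.kron R₂).hwMult (tsub (R₁.cyc v₁) (R₂.cyc v₂)) (halfV X) ≠ 0) : Occ L M X := by
  have hne : (tsub (R₁.cyc v₁) (R₂.cyc v₂) ⊓ (R₁.kron R₂).wt (halfV X) ⊓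
      (R₁.kron R₂).prim : Submodule ℂ (ι₁ × ι₂ → ℂ)) ≠ ⊥ := by
    intro hb
    apply h
    unfold StarRep.hwMult
    rw [hb]
    exact finrank_bot ℂ _
  obtain ⟨p, ⟨⟨hpS, hpw⟩, hpp⟩, hp0⟩ := Submodule.exists_mem_ne_zero_of_ne_bot hne
  have hHW : IsHW (R₁.kron R₂) p (halfV X) := (isHW_iff _ _ _).mpr ⟨hp0, hpw, hpp⟩
  have hex : ∃ a ∈ R₁.cyc v₁, ∃ b ∈ R₂.cyc v₂, star p ⬝ᵥ tmul a b ≠ 0 := by
    by_contra hcon
    push Not at hcon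
    have hall : ∀ s ∈ tsub (R₁.cyc v₁) (R₂.cyc v₂), star p ⬝ᵥ s = 0 := by
      intro s hs
      unfold tsub at hs
      induction hs using Submodule.span_induction with
      | mem s hs =>
        obtain ⟨a, ha, b, hb, rfl⟩ := hs
        exact hcon a ha b hb
      | zero => exact dotProduct_zero _
      | add s t _ _ hs ht => rw [dotProduct_add, hs, ht, add_zero]
      | smul c s _ hs => rw [dotProduct_smul, hs, smul_zero]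
    exact hp0 ((star_dot_self_eq_zero p).mp (hall p hpS))
  obtain ⟨a, ha, b, hb, hab⟩ := hex
  refine ⟨Fintype.card ι₁, Fintype.card ι₂, Fintype.card (ι₁ × ι₂),
    R₁.reindex (Fintype.equivFin ι₁), R₂.reindex (Fintype.equivFin ι₂),
    (R₁.kron R₂).reindex (Fintype.equivFin (ι₁ × ι₂)),
    roiT (Fintype.equivFin ι₁) (Fintype.equivFin ι₂) (Fintype.equivFin (ι₁ × ι₂)),
    v₁ ∘ (Fintype.equivFin ι₁).symm, v₂ ∘ (Fintype.equivFin ι₂).symm,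
    p ∘ (Fintype.equivFin (ι₁ × ι₂)).symm, ?_, reindex_isHW _ _ _ _ h₁, reindex_isHW _ _ _ _ h₂,
    reindex_isHW _ _ _ _ hHW, a ∘ (Fintype.equivFin ι₁).symm, (reindex_cyc _ _ _ _).mpr ha,
    b ∘ (Fintype.equivFin ι₂).symm, (reindex_cyc _ _ _ _).mpr hb,
    p ∘ (Fintype.equivFin (ι₁ × ι₂)).symm, mem_cyc _ _, ?_⟩
  · intro Y hY a' b'
    rw [← op_apply, ← op_apply, ← op_apply, roi_T_apply, roi_T_apply, roi_T_apply, reindex_op,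
      roi_kron_op, roi_reindex_op, roi_reindex_op]
    rfl
  · rw [roi_T_apply]
    have e1 : (a ∘ (Fintype.equivFin ι₁).symm) ∘ (Fintype.equivFin ι₁) = a := by funext k; simp
    have e2 : (b ∘ (Fintype.equivFin ι₂).symm) ∘ (Fintype.equivFin ι₂) = b := by funext k; simp
    rw [e1, e2]
    have e3 : star (p ∘ (Fintype.equivFin (ι₁ × ι₂)).symm) ⬝ᵥ
        (tmul a b ∘ (Fintype.equivFin (ι₁ × ι₂)).symm) = star p ⬝ᵥ tmul a b := by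
      unfold dotProduct
      exact Equiv.sum_comp (Fintype.equivFin (ι₁ × ι₂)).symm (fun k => star p k * tmul a b k)
    rw [e3]
    exact hab

/-- (T-a) occurrence = existence of a primitive vector in the tensor product of ANY two models -/
theorem rep_occ_iff (hn : 2 ≤ n) (L M X : Fin n → ℤ) (R₁ : StarRep Ty.D n ι₁) (R₂ : StarRep Ty.D n ι₂)
    (v₁ : ι₁ → ℂ) (v₂ : ι₂ → ℂ) (h₁ : IsHW R₁ v₁ (halfV L)) (h₂ : IsHW R₂ v₂ (halfV M)) :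
    Occ L M X ↔ (R₁.kron R₂).hwMult (tsub (R₁.cyc v₁) (R₂.cyc v₂)) (halfV X) ≠ 0 :=
  ⟨roi_fwd L M X R₁ R₂ v₁ v₂ h₁ h₂, roi_bwd L M X R₁ R₂ v₁ v₂ h₁ h₂⟩

end Claimed.Agent.R282
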