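import Claimed.Agent.R282.Rep.R.Irr
import Claimed.Agent.R282.Rep.C.WDkit.Cham

/-!
# Row 282, Rep, LEAF L-REP-SPLIT : complete reducibility (statements by helper103)

Induction on `finrank S`.  If `S ≠ ⊥` take a weight `χ` of `S` with `dot χ (rhoV n)` maximal and `0 ≠ a ∈ S ⊓ wt χ`: `a` is primitive.  `S = cyc a ⊕ (S ⊓ orthC (cyc a))`, both invariant.
`mult`, `hwMult` are additive on orthogonal invariant sums; `hwMult (cyc a) κ = if κ = χ then 1 else 0` (a primitive vector of `cyc a` generates an invariant subspace, `rep_irred`, `rep_top`); `mult (cyc a) = chi χ` by `rep_unique`.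
-/

set_option autoImplicit false

namespace Claimed.Agent.R282

open Claims.C0456 Matrix

variable {n : ℕ}
variable {ι ι' ι₁ ι₂ ι₃ : Type} [Fintype ι] [DecidableEq ι] [Fintype ι'] [DecidableEq ι']
  [Fintype ι₁] [DecidableEq ι₁] [Fintype ι₂] [DecidableEq ι₂] [Fintype ι₃] [DecidableEq ι₃]

theorem rsp_exists_of_mult (R : StarRep Ty.D n ι) (S : Submodule ℂ (ι → ℂ)) (χ : Vec n)
    (h : R.mult S χ ≠ 0) : ∃ a, a ∈ S ∧ a ∈ R.wt χ ∧ a ≠ 0 := by
  have hne : (S ⊓ R.wt χ : Submodule ℂ (ι → ℂ)) ≠ ⊥ := by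
    intro hb
    apply h
    unfold StarRep.mult
    rw [hb]
    exact finrank_bot ℂ (ι → ℂ)
  obtain ⟨a, ha, ha0⟩ := Submodule.exists_mem_ne_zero_of_ne_bot hne
  exact ⟨a, ha.1, ha.2, ha0⟩

theorem rsp_mult_of_exists (R : StarRep Ty.D n ι) (S : Submodule ℂ (ι → ℂ)) (χ : Vec n)
    (a : ι → ℂ) (ha : a ∈ S) (hw : a ∈ R.wt χ) (h0 : a ≠ 0) : R.mult S χ ≠ 0 := by
  intro h
  unfold StarRep.mult at h
  rw [Submodule.finrank_eq_zero] at h
  have : a ∈ (S ⊓ R.wt χ : Submodule ℂ (ι → ℂ)) := ⟨ha, hw⟩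
  rw [h] at this
  exact h0 ((Submodule.mem_bot ℂ).mp this)

/-- a nonzero invariant subspace contains a primitive weight vector -/
theorem rsp_exists_prim (R : StarRep Ty.D n ι) (S : Submodule ℂ (ι → ℂ)) (hS : R.Inv S)
    (hne : S ≠ ⊥) : ∃ (χ : Vec n) (a : ι → ℂ), a ≠ 0 ∧ a ∈ S ∧ a ∈ R.wt χ ∧ a ∈ R.prim := by
  have hfin : {χ : Vec n | R.mult S χ ≠ 0}.Finite := by
    refine (wt_finite R).subset ?_
    intro χ hχ
    obtain ⟨a, -, haw, ha0⟩ := rsp_exists_of_mult R S χ hχ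
    intro hb
    rw [hb] at haw
    exact ha0 ((Submodule.mem_bot ℂ).mp haw)
  have hnon : {χ : Vec n | R.mult S χ ≠ 0}.Nonempty := by
    by_contra hcon
    rw [Set.not_nonempty_iff_eq_empty] at hcon
    apply hne
    rw [wt_decomp R S hS]
    rw [iSup_eq_bot]
    intro χ
    by_contra hχ
    obtain ⟨a, ha, ha0⟩ := Submodule.exists_mem_ne_zero_of_ne_bot hχ
    have : χ ∈ {χ : Vec n | R.mult S χ ≠ 0} := rsp_mult_of_exists R S χ a ha.1 ha.2 ha0
    rw [hcon] at this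
    exact this
  obtain ⟨χ, hχ, hmax⟩ := Set.exists_max_image _ (fun χ : Vec n => dot χ (rhoV n)) hfin hnon
  obtain ⟨a, haS, haw, ha0⟩ := rsp_exists_of_mult R S χ hχ
  exact ⟨χ, a, ha0, haS, haw, prim_of_max R S hS χ (fun χ' h' => hmax χ' h') a ⟨haS, haw⟩⟩

/-- the multiplicities of the cyclic module of a highest weight vector depend only on the weight -/
theorem rsp_mult_eq (R : StarRep Ty.D n ι) (R' : StarRep Ty.D n ι') (v : ι → ℂ) (v' : ι' → ℂ)
    (lam : Vec n) (h : IsHW R v lam) (h' : IsHW R' v' lam) (ψ : Vec n) :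
    R.mult (R.cyc v) ψ = R'.mult (R'.cyc v') ψ := by
  obtain ⟨Φ, -, hΦ, hinj, hmap⟩ := rep_unique R R' v v' lam h h'
  have hmap2 : (R.cyc v ⊓ R.wt ψ : Submodule ℂ (ι → ℂ)).map Φ = R'.cyc v' ⊓ R'.wt ψ := by
    apply le_antisymm
    · rintro _ ⟨x, ⟨hx1, hx2⟩, rfl⟩
      refine ⟨hmap ▸ Submodule.mem_map_of_mem hx1, ?_⟩
      have hx2' := (mem_wt R ψ x).mp hx2
      show Φ x ∈ R'.wt ψ
      rw [mem_wt]
      intro t
      rw [← hΦ _ (inG_Hc t), hx2' t, map_smul]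
    · rintro y ⟨hy1, hy2⟩
      have hy1' : y ∈ (R.cyc v).map Φ := hmap ▸ hy1
      obtain ⟨x, hx, rfl⟩ := hy1'
      refine ⟨x, ⟨hx, ?_⟩, rfl⟩
      have hy2' := (mem_wt R' ψ _).mp hy2
      show x ∈ R.wt ψ
      rw [mem_wt]
      intro t
      have hmem : R.op (Hc t) x - ((dot ψ t : ℝ) : ℂ) • x ∈ R.cyc v :=
        (R.cyc v).sub_mem (cyc_inv R v _ (inG_Hc t) x hx) ((R.cyc v).smul_mem _ hx)
      have hz : Φ (R.op (Hc t) x - ((dot ψ t : ℝ) : ℂ) • x) = 0 := by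
        rw [map_sub, map_smul, hΦ _ (inG_Hc t), hy2' t, sub_self]
      exact sub_eq_zero.mp (hinj _ hmem hz)
  unfold StarRep.mult
  rw [← hmap2]
  symm
  have hinj2 : Function.Injective (Φ.domRestrict (R.cyc v ⊓ R.wt ψ : Submodule ℂ (ι → ℂ))) := by
    rw [← LinearMap.ker_eq_bot, LinearMap.ker_eq_bot']
    rintro ⟨x, hx⟩ hx0
    have : x = 0 := hinj x hx.1 hx0
    exact Subtype.ext this
  rw [← LinearMap.range_domRestrict]
  exact LinearMap.finrank_range_of_inj hinj2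

/-- the cyclic module of a highest weight vector has, up to scalars, only one primitive weight vector -/
theorem rsp_hwMult_cyc (R : StarRep Ty.D n ι) (a : ι → ℂ) (κ₀ : Fin n → ℤ)
    (h : IsHW R a (halfV κ₀)) (κ : Fin n → ℤ) :
    R.hwMult (R.cyc a) (halfV κ) = if κ = κ₀ then 1 else 0 := by
  obtain ⟨ha0, haw, hap⟩ := (isHW_iff R _ _).mp h
  obtain ⟨htop, hle⟩ := rep_top R a κ₀ h
  by_cases hκ : κ = κ₀
  · subst hκ
    rw [if_pos rfl]
    have hle2 : (R.cyc a ⊓ R.wt (halfV κ) : Submodule ℂ (ι → ℂ)) ≤ R.prim := by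
      intro x hx
      have hamem : a ∈ (R.cyc a ⊓ R.wt (halfV κ) : Submodule ℂ (ι → ℂ)) := ⟨mem_cyc R a, haw⟩
      unfold StarRep.mult at htop
      obtain ⟨c, hc⟩ := (finrank_eq_one_iff_of_nonzero'
        (⟨a, hamem⟩ : (R.cyc a ⊓ R.wt (halfV κ) : Submodule ℂ (ι → ℂ)))
        (by intro h0; exact ha0 (congrArg Subtype.val h0))).mp htop ⟨x, hx⟩
      have hc' : c • a = x := congrArg Subtype.val hc
      rw [← hc']
      exact R.prim.smul_mem _ hap
    unfold StarRep.hwMult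
    rw [inf_eq_left.mpr hle2]
    exact htop
  · rw [if_neg hκ]
    unfold StarRep.hwMult
    rw [Submodule.finrank_eq_zero]
    by_contra hne
    obtain ⟨b, ⟨⟨hbS, hbw⟩, hbp⟩, hb0⟩ := Submodule.exists_mem_ne_zero_of_ne_bot hne
    have hb : IsHW R b (halfV κ) := (isHW_iff R _ _).mpr ⟨hb0, hbw, hbp⟩
    have hcyc : R.cyc b = R.cyc a := by
      rcases rep_irred R a _ h (R.cyc b) (cyc_inv R b) (cyc_le R b _ (cyc_inv R a) hbS) with hb' | he
      · exfalso
        have := mem_cyc R b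
        rw [hb'] at this
        exact hb0 ((Submodule.mem_bot ℂ).mp this)
      · exact he
    obtain ⟨γ, hγ, hq⟩ := hle _ (rsp_mult_of_exists R _ _ b hbS hbw hb0)
    have hγ' : κ = γ := halfV_injective hγ
    subst hγ'
    obtain ⟨γ', hγ', hq'⟩ := (rep_top R b κ hb).2 _
      (rsp_mult_of_exists R _ _ a (hcyc ▸ mem_cyc R a) haw ha0)
    have hγ'' : κ₀ = γ' := halfV_injective hγ'
    subst hγ''
    have := qplus_antisymm _ hq (by rw [neg_sub]; exact hq')
    exact hκ (sub_eq_zero.mp this).symm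

/-- (R4) complete reducibility, character form: `ch S = ∑_κ (number of copies of V(κ)) ch V(κ)`.
`chi κ` = any family of characters of the irreducible modules. -/
theorem rep_split (hn : 2 ≤ n) (R : StarRep Ty.D n ι) (S : Submodule ℂ (ι → ℂ)) (hS : R.Inv S)
    (chi : (Fin n → ℤ) → (Fin n → ℤ) → ℤ)
    (hchi : ∀ κ, IsDominantWeight2 κ → ∃ (m : ℕ) (R' : StarRep Ty.D n (Fin m)) (v' : Fin m → ℂ),
      IsHW R' v' (halfV κ) ∧ chi κ = R'.chZ (R'.cyc v')) :
    ∃ F : Finset (Fin n → ℤ), (∀ κ ∈ F, IsDominantWeight2 κ) ∧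
      (∀ κ, IsDominantWeight2 κ → κ ∉ F → R.hwMult S (halfV κ) = 0) ∧
      ∀ γ, R.chZ S γ = ∑ κ ∈ F, (R.hwMult S (halfV κ) : ℤ) * chi κ γ := by
  classical
  induction hd : Module.finrank ℂ S using Nat.strong_induction_on generalizing S with
  | _ d ih =>
  by_cases hbot : S = ⊥
  · subst hbot
    refine ⟨∅, by simp, ?_, ?_⟩
    · intro κ _ _
      unfold StarRep.hwMult
      rw [bot_inf_eq, bot_inf_eq]
      exact finrank_bot ℂ _
    · intro γ
      unfold StarRep.chZ StarRep.mult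
      rw [bot_inf_eq, finrank_bot ℂ (ι → ℂ)]
      simp
  · obtain ⟨χ, a, ha0, haS, haw, hap⟩ := rsp_exists_prim R S hS hbot
    have hHW0 : IsHW R a χ := (isHW_iff R _ _).mpr ⟨ha0, haw, hap⟩
    obtain ⟨κ₀, hκ₀, rfl⟩ := rep_hw_dominant hn R a χ hHW0
    have hCinv := cyc_inv R a
    have hCle : R.cyc a ≤ S := cyc_le R a S hS haS
    have hS'inv : R.Inv (S ⊓ orthC (R.cyc a)) := inv_inf R _ _ hS (inv_orthC R _ hCinv)
    have hsup : R.cyc a ⊔ (S ⊓ orthC (R.cyc a)) = S := orthC_rel _ _ hCle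
    have horth : S ⊓ orthC (R.cyc a) ≤ orthC (R.cyc a) := inf_le_right
    have hlt : Module.finrank ℂ (S ⊓ orthC (R.cyc a) : Submodule ℂ (ι → ℂ)) < d := by
      have h1 := Submodule.finrank_sup_add_finrank_inf_eq (R.cyc a) (S ⊓ orthC (R.cyc a))
      have h2 : R.cyc a ⊓ (S ⊓ orthC (R.cyc a)) = ⊥ := by
        apply le_bot_iff.mp
        calc R.cyc a ⊓ (S ⊓ orthC (R.cyc a)) ≤ R.cyc a ⊓ orthC (R.cyc a) :=
              inf_le_inf_left _ inf_le_right
          _ = ⊥ := orthC_inf _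
      rw [hsup, h2, finrank_bot ℂ (ι → ℂ), hd, add_zero] at h1
      have h3 : 0 < Module.finrank ℂ (R.cyc a) := by
        rw [Module.finrank_pos_iff_exists_ne_zero]
        exact ⟨⟨a, mem_cyc R a⟩, fun h0 => ha0 (congrArg Subtype.val h0)⟩
      omega
    obtain ⟨F', hF'1, hF'2, hF'3⟩ := ih _ hlt _ hS'inv rfl
    have hhw : ∀ κ, R.hwMult S (halfV κ) =
        (if κ = κ₀ then 1 else 0) + R.hwMult (S ⊓ orthC (R.cyc a)) (halfV κ) := by
      intro κ
      rw [← rsp_hwMult_cyc R a κ₀ hHW0 κ, ← hwMult_add R _ _ hCinv hS'inv horth, hsup]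
    refine ⟨insert κ₀ F', ?_, ?_, ?_⟩
    · intro κ hκ
      rcases Finset.mem_insert.mp hκ with rfl | hκ
      · exact hκ₀
      · exact hF'1 κ hκ
    · intro κ hκ hκF
      rw [Finset.mem_insert, not_or] at hκF
      rw [hhw κ, if_neg hκF.1, hF'2 κ hκ hκF.2]
    · intro γ
      obtain ⟨m, R', v', hHW', hchi'⟩ := hchi κ₀ hκ₀
      have e1 : R.chZ S γ = chi κ₀ γ + R.chZ (S ⊓ orthC (R.cyc a)) γ := by
        unfold StarRep.chZ
        rw [hchi']
        unfold StarRep.chZ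
        rw [← rsp_mult_eq R R' a v' _ hHW0 hHW', ← Nat.cast_add,
          ← mult_add R _ _ hCinv hS'inv horth, hsup]
      rw [e1, hF'3 γ]
      simp only [hhw, Nat.cast_add, add_mul, Finset.sum_add_distrib]
      congr 1
      · rw [Finset.sum_eq_single κ₀]
        · simp
        · intro κ _ hκ
          simp [hκ]
        · intro hκ
          exact absurd (Finset.mem_insert_self _ _) hκ
      · apply Finset.sum_subset (Finset.subset_insert _ _)
        intro κ hκ hκF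
        rcases Finset.mem_insert.mp hκ with rfl | hκ
        · rw [hF'2 κ hκ₀ hκF]; simp
        · exact absurd hκ hκF

/-- (R4') orthogonal splitting (form used by S1) : an invariant subspace is the sum of the cyclic modules of its primitive weight vectors -/
theorem rep_split_span (R : StarRep Ty.D n ι) (S : Submodule ℂ (ι → ℂ)) (hS : R.Inv S) :
    S = ⨆ (χ : Vec n) (a : (S ⊓ R.wt χ ⊓ R.prim : Submodule ℂ (ι → ℂ))), R.cyc (a : ι → ℂ) := by
  set U : Submodule ℂ (ι → ℂ) :=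
    ⨆ (χ : Vec n) (a : (S ⊓ R.wt χ ⊓ R.prim : Submodule ℂ (ι → ℂ))), R.cyc (a : ι → ℂ) with hU
  have hUinv : R.Inv U := inv_iSup R _ fun χ => inv_iSup R _ fun a => cyc_inv R _
  have hUle : U ≤ S := iSup_le fun χ => iSup_le fun a => cyc_le R _ S hS a.2.1.1
  have hsup : U ⊔ (S ⊓ orthC U) = S := orthC_rel _ _ hUle
  have hbot : S ⊓ orthC U = ⊥ := by
    by_contra hne
    obtain ⟨χ, a, ha0, haS, haw, hap⟩ :=
      rsp_exists_prim R _ (inv_inf R _ _ hS (inv_orthC R _ hUinv)) hne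
    have haU : a ∈ U := by
      have h1 : R.cyc a ≤ U :=
        le_iSup_of_le χ (le_iSup_of_le
          (⟨a, ⟨⟨haS.1, haw⟩, hap⟩⟩ : (S ⊓ R.wt χ ⊓ R.prim : Submodule ℂ (ι → ℂ))) le_rfl)
      exact h1 (mem_cyc R a)
    have : a ∈ U ⊓ orthC U := ⟨haU, haS.2⟩
    rw [orthC_inf] at this
    exact ha0 ((Submodule.mem_bot ℂ).mp this)
  rw [hbot, sup_bot_eq] at hsup
  exact hsup.symm

end Claimed.Agent.R282
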