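import Claimed.Agent.R282.Rep.R.Irr
import Claimed.Agent.R282.Rep.R.Weyl.Refl
import Claimed.Agent.R282.Rep.R.Weyl.Fre
import Claimed.Agent.R282.Rep.R.Weyl.CasWt

/-!
# Row 282, Rep, PACKAGE BP-REP-W : Casimir, Weyl invariance, Freudenthal (statements by helper103), ~3k lines

CUT by helper139: the three theorems below are PROVED from the leaf files `R/Weyl/{Sum,Tr,Sl2,Basic,Refl,Cas,Fre}.lean` (leaves L-RWY-*; `posSum` now lives in `R/Weyl/Sum.lean`, verbatim).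

(W0) `casimir` commutes with `ρ X`, `X ∈ g`: enough for `X = rootVec β`, `Hc x` (`inG_span`).  Slick: `casimir = ∑_a ρ(X_a) ρ(X^a)` for the dual bases of the invariant form `(X,Y) = (1/2) tr(XY)`: `{Hc e_i}` self-dual, `rootVec β ↔ (rootVec β)ᴴ`;
     `[X, X_a] = ∑_b c_ab X_b` implies `[X, X^b] = - ∑_a c_ab X^a`.  Value on `v`: `e_β e_β^* v = ⟨λ,β⟩ v` (`β > 0`), `= 0` (`β < 0`), `∑_(β>0) β = 2 ρ`.  The set `{a | casimir a = c a}` is invariant and contains `v`.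
(W1) fix a root `β`, `e = op (rootVec β)`, `f = e^*`, `h = op (Hc β.vec) = [e,f]`.  For `χ` put `V_k = S ⊓ wt (χ + k β)`, `c_k = ⟨χ,β⟩ + 2k`.  `‖e a‖² = ‖f a‖² - c ‖a‖²` on weight `c`: `e` injective for `c < 0`, `f` injective for `c > 0`.
     `V_k = (ker f ∩ V_k) ⊕ e V_(k-1)` orthogonally.  `dim (ker e ∩ V[c]) = dim (ker f ∩ V[-c])` : `f^c` resp. `e^c` are injective between them (`lie_e_pow_succ_toEnd_f`, `pow_toEnd_f_eq_zero_of_eq_nat`).  Downward induction from the ends of the string gives `dim V[c] = dim V[-c]`.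
     (`c ∈ ℤ` whenever `V[c] ≠ 0`: `exists_nat`.)  So `mult S (refl β χ) = mult S χ`.  Every `w : WD n` is a product of reflections `refl β` (transpositions: `e_i - e_j`; two sign changes: `refl (e_i - e_j) ∘ refl (e_i + e_j)`).
(W2) `T_k := Tr (f e | V_k)`; `Tr (f e | V_k) = Tr (e f | V_(k+1))` (`LinearMap.trace_comp_comm'`-type statement for maps between two spaces), `e f = f e + h`: `T_k = T_(k+1) + c_(k+1) dim V_(k+1)`; `T_k = 0` for large `k`.  So `Tr (f_β e_β | V_χ) = ∑_(k≥1) ⟨χ + kβ, β⟩ m(χ + kβ)`.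
     `casimir = ∑ H_i² + ∑_(β>0) (H_β + 2 f_β e_β)`; trace on `V_χ`; (W0).
-/

set_option autoImplicit false

namespace Claimed.Agent.R282

open Claims.C0456 Matrix

variable {n : ℕ}
variable {ι ι' ι₁ ι₂ ι₃ : Type} [Fintype ι] [DecidableEq ι] [Fintype ι'] [DecidableEq ι']
  [Fintype ι₁] [DecidableEq ι₁] [Fintype ι₂] [DecidableEq ι₂] [Fintype ι₃] [DecidableEq ι₃]

/-- (W0) Casimir scalar -/
theorem rep_casimir (R : StarRep Ty.D n ι) (v : ι → ℂ) (lam : Vec n) (h : IsHW R v lam) :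
    ∀ a ∈ R.cyc v, R.casimir.mulVec a = ((dot lam lam + 2 * dot lam (rhoV n) : ℝ) : ℂ) • a :=
  rwy_casimir R v lam h

/-- (W1) Weyl group invariance of the weight multiplicities -/
theorem rep_mult_weyl (R : StarRep Ty.D n ι) (S : Submodule ℂ (ι → ℂ)) (hS : R.Inv S) (w : WD n)
    (χ : Vec n) : R.mult S (w.act χ) = R.mult S χ :=
  rwy_mult_weyl R S hS w χ

/-- (W2) Freudenthal's formula (`posSum` counts every positive root twice) -/
theorem rep_freudenthal (R : StarRep Ty.D n ι) (v : ι → ℂ) (lam : Vec n) (h : IsHW R v lam)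
    (χ : Vec n) (K : ℕ) (hK : ∀ k, K ≤ k → ∀ β : RootD n, R.mult (R.cyc v) (χ + (k : ℝ) • β.vec) = 0) :
    (dot (lam + rhoV n) (lam + rhoV n) - dot (χ + rhoV n) (χ + rhoV n)) * (R.mult (R.cyc v) χ : ℝ) =
      posSum fun β => ∑ k ∈ Finset.Ico 1 K,
        dot (χ + (k : ℝ) • β.vec) β.vec * (R.mult (R.cyc v) (χ + (k : ℝ) • β.vec) : ℝ) :=
  rwy_freudenthal R v lam h χ K hK

end Claimed.Agent.R282
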